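import Vale.Agent.P268.T.H128.Ind
import Vale.Agent.P268.T.H266.Lev

/-!
# P268, topological half, route V: the list induction, for the second form of the level step

The level step `levw` ends literally in the gate form `B + Gam a (lam * (cy T a y * ‖y‖)) z`
(`gl`).  `Ge l c`: the iterated gate form.  `chain_equiv_gate`: chain polynomials are equivalent to
`Ge l c`, for nested eventually all parameters `l`.
-/

set_option linter.unusedSectionVars false

namespace Vale.Agent.P268.T.RV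

open Set Filter Topology

/-- The gate form of one level. -/
noncomputable def gl {E : Type*} (T a : ℕ) (B : E × ℂ → ℂ) (lam : ℝ) (p : (E × ℂ) × ℂ) : ℂ :=
  B p.1 + Gam a (lam * (cy T a p.1.2 * ‖p.1.2‖)) p.2

/-- The iterated gate form: parameters `l`, chain `c`. -/
noncomputable def Ge : List ℝ → ∀ c : List ℕ, Sp c → ℂ
  | _, [] => fun _ => 0
  | _, [a] => fun p => ((‖p.2‖ : ℝ) : ℂ) * eI (Sph a p.2)
  | l, a :: b :: c => fun p => gl (E := Sp c) (trn b c) a (Ge l.tail (b :: c)) l.headI p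

theorem Ge_single (l : List ℝ) (a : ℕ) (p : Sp [] × ℂ) :
    Ge l [a] p = ((‖p.2‖ : ℝ) : ℂ) * eI (Sph a p.2) := rfl

theorem Ge_cons (K : ℝ) (l : List ℝ) (a b : ℕ) (c : List ℕ) (p : (Sp c × ℂ) × ℂ) :
    Ge (K :: l) (a :: b :: c) p =
      Ge l (b :: c) p.1 + Gam a (K * (cy (trn b c) a p.1.2 * ‖p.1.2‖)) p.2 := rfl

/-- One level (all levels but the first): from the chain link to the gate. -/
def LevelStepW (L' : ℕ → ℝ) : Prop :=
  ∀ (E : Type) [NormedAddCommGroup E] [NormedSpace ℝ E] [FiniteDimensional ℝ E]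
    (T N a : ℕ) (L : ℝ) (B : E × ℂ → ℂ), IHw T N L B → 2 ≤ a → a + 1 ≤ N →
    ∃ lam₁ : ℝ, ∀ lam ≥ lam₁,
      TEqv (L' a) (fun p : (E × ℂ) × ℂ => B p.1 + clk lam a p.1.2 p.2) (gl T a B lam) ∧
      IHw (a + 1) a (L' a) (gl T a B lam)

/-- The tau move and the phase move (306, 740): from the chain link to `levw` at time `0`. -/
def TauPhaseW (L' : ℕ → ℝ) : Prop :=
  ∀ (E : Type) [NormedAddCommGroup E] [NormedSpace ℝ E] [FiniteDimensional ℝ E]
    (T N a : ℕ) (L : ℝ) (B : E × ℂ → ℂ), IHw T N L B → 2 ≤ a → a + 1 ≤ N →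
    ∃ lam₁ : ℝ, ∀ lam ≥ lam₁,
      TEqv (L' a) (fun p : (E × ℂ) × ℂ => B p.1 + clk lam a p.1.2 p.2) (levw T a B lam 0)

/-- The window move (266): `levw` is a tame path. -/
def LevTameW (L' : ℕ → ℝ) : Prop :=
  ∀ (E : Type) [NormedAddCommGroup E] [NormedSpace ℝ E] [FiniteDimensional ℝ E]
    (T N a : ℕ) (L : ℝ) (B : E × ℂ → ℂ), IHw T N L B → 2 ≤ a → a + 1 ≤ N →
    ∃ lam₁ : ℝ, ∀ lam ≥ lam₁, Tame (Icc (0 : ℝ) 1) (L' a) (fun t => levw T a B lam t)

/-- The end of the window move satisfies the induction hypothesis (266). -/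
def LevIHW (L' : ℕ → ℝ) : Prop :=
  ∀ (E : Type) [NormedAddCommGroup E] [NormedSpace ℝ E] [FiniteDimensional ℝ E]
    (T N a : ℕ) (L : ℝ) (B : E × ℂ → ℂ), IHw T N L B → 2 ≤ a → a + 1 ≤ N →
    ∃ lam₁ : ℝ, ∀ lam ≥ lam₁, IHw (a + 1) a (L' a) (levw T a B lam 1)

/-- The end of the window move is the gate form (266). -/
def LevOneW : Prop :=
  ∀ (E : Type) [NormedAddCommGroup E] [NormedSpace ℝ E] [FiniteDimensional ℝ E]
    (T N a : ℕ) (L : ℝ) (B : E × ℂ → ℂ), IHw T N L B → 2 ≤ a → a + 1 ≤ N →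
    ∀ lam : ℝ, 0 ≤ lam → ∀ p, levw T a B lam 1 p = gl T a B lam p

theorem IHw.mono_lip {E : Type*} [NormedAddCommGroup E] [NormedSpace ℝ E] {T N : ℕ} {L L' : ℝ}
    {B : E × ℂ → ℂ} (h : IHw T N L B) (hL : L ≤ L') : IHw T N L' B :=
  ⟨h.le, h.tame.mono_lip hL, h.cone⟩

theorem levelStepW {L₁ L₂ L₃ : ℕ → ℝ} (h1 : TauPhaseW L₁) (h2 : LevTameW L₂) (h3 : LevIHW L₃)
    (h4 : LevOneW) : LevelStepW (fun a => max (L₁ a) (max (L₂ a) (L₃ a))) := by
  intro E _ _ _ T N a L B hB ha haN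
  obtain ⟨l1, g1⟩ := h1 E T N a L B hB ha haN
  obtain ⟨l2, g2⟩ := h2 E T N a L B hB ha haN
  obtain ⟨l3, g3⟩ := h3 E T N a L B hB ha haN
  refine ⟨max 0 (max l1 (max l2 l3)), fun lam hlam => ?_⟩
  have k0 : 0 ≤ lam := (le_max_left _ _).trans hlam
  have k1 : l1 ≤ lam := ((le_max_left _ _).trans (le_max_right _ _)).trans hlam
  have k2 : l2 ≤ lam := (((le_max_left _ _).trans (le_max_right _ _)).trans
    (le_max_right _ _)).trans hlam
  have k3 : l3 ≤ lam := (((le_max_right _ _).trans (le_max_right _ _)).trans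
    (le_max_right _ _)).trans hlam
  have e : levw T a B lam 1 = gl T a B lam := funext fun p => h4 E T N a L B hB ha haN lam k0 p
  have p1 := (g1 lam k1).mono_lip (le_max_left (L₁ a) (max (L₂ a) (L₃ a)))
  have p2 : TEqv (L₂ a) (levw T a B lam 0) (gl T a B lam) := by
    rw [← e]
    exact TEqv.of_path (Φ := fun t => levw T a B lam t) (g2 lam k2)
  have p3 := g3 lam k3
  rw [e] at p3
  refine ⟨p1.trans (p2.mono_lip ?_), p3.mono_lip ?_⟩
  · exact (le_max_left _ _).trans (le_max_right _ _)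
  · exact (le_max_right _ _).trans (le_max_right _ _)

/-- The first level. -/
def FirstLevelW (L₁ : ℕ → ℝ) : Prop :=
  ∀ a : ℕ, 2 ≤ a → ∀ (lam : ℝ) (l : List ℝ),
    TEqv (L₁ a) (Fl lam [a] : Sp [] × ℂ → ℂ) (Ge l [a]) ∧
      IHw (E := Sp []) a a (L₁ a) (Ge l [a])

/-- **The list induction.** -/
theorem chain_to_gate {L' L₁ L₂ : ℕ → ℝ} (hstep : LevelStepW L') (hfirst : FirstLevelW L₁)
    (hlk : ChainLink L₂) : ∀ (c : List ℕ) (a : ℕ), (∀ x ∈ a :: c, 2 ≤ x) →
    (a :: c).IsChain (· < ·) → ∀ᶠ l in nestF c.length, ∃ L : ℝ,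
      IHw (E := Sp c) (trn a c) a L (Ge l (a :: c)) ∧
      ∃ lam₀ : ℝ, ∀ lam ≥ lam₀, TEqv (E := Sp c) L (Fl lam (a :: c)) (Ge l (a :: c)) := by
  intro c
  induction c with
  | nil =>
    intro a ha _
    show ∀ᶠ l in nestF 0, _
    rw [eventually_nestF_zero]
    have ha2 : 2 ≤ a := ha a List.mem_cons_self
    exact ⟨L₁ a, (hfirst a ha2 0 []).2, 0, fun lam _ => (hfirst a ha2 lam []).1⟩
  | cons b c ih =>
    intro a ha hc
    have hab : a < b := by
      cases hc with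
      | cons_cons h _ => exact h
    have hbc : (b :: c).IsChain (· < ·) := by
      cases hc with
      | cons_cons _ h => exact h
    have ha2 : 2 ≤ a := ha a List.mem_cons_self
    have h1 := ih b (fun x hx => ha x (List.mem_cons_of_mem _ hx)) hbc
    show ∀ᶠ l in nestF (c.length + 1), _
    rw [eventually_nestF_succ]
    filter_upwards [h1] with l hl
    obtain ⟨L, hIH, lam₀, hT⟩ := hl
    obtain ⟨lam₁, hlev⟩ := hstep (Sp c) (trn b c) b a L (Ge l (b :: c)) hIH ha2 hab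
    obtain ⟨lam₂, hlink⟩ := hlk L a ha2
    filter_upwards [eventually_ge_atTop (max lam₁ lam₂)] with K hK
    obtain ⟨hK1, hK2⟩ := hlev K ((le_max_left _ _).trans hK)
    have hK3 : lam₂ ≤ K := (le_max_right _ _).trans hK
    have hF : (Ge (K :: l) (a :: b :: c) : Sp (b :: c) × ℂ → ℂ) =
        gl (E := Sp c) (trn b c) a (Ge l (b :: c)) K := rfl
    rw [hF]
    refine ⟨max (L₂ a) (L' a), hK2.mono_lip (le_max_right _ _), max lam₀ lam₂, fun lam hlam => ?_⟩
    have hl0 : lam₀ ≤ lam := (le_max_left _ _).trans hlam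
    have hl2 : lam₂ ≤ lam := (le_max_right _ _).trans hlam
    -- attach the link to the path below
    have s1 : TEqv (L₂ a) (fun p : (Sp c × ℂ) × ℂ => Fl lam (b :: c) p.1 + clk lam a p.1.2 p.2)
        (fun p => Ge l (b :: c) p.1 + clk lam a p.1.2 p.2) :=
      (hT lam hl0).tail (hlink.param (s' := (univ : Set Unit)) (φ := fun _ => lam)
        continuousOn_const (fun _ _ => hl2))
    -- move the slope of the link
    have s2 : TEqv (L₂ a) (fun p : (Sp c × ℂ) × ℂ => Ge l (b :: c) p.1 + clk lam a p.1.2 p.2)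
        (fun p => Ge l (b :: c) p.1 + clk K a p.1.2 p.2) := by
      have h2 : Tame (Ici lam₂) L (fun _ : ℝ => (Ge l (b :: c) : Sp c × ℂ → ℂ)) :=
        TFun.const hIH.tame _
      exact TEqv.of_fam isPreconnected_Ici (h2.tail hlink) hl2 hK3
    exact ((s1.trans s2).mono_lip (le_max_left _ _)).trans (hK1.mono_lip (le_max_right _ _))

/-- **Route V, first half**: the chain polynomial is equivalent to the iterated gate form. -/
theorem chain_equiv_gate {L' L₁ L₂ : ℕ → ℝ} (hP0 : BlockP0) (hstep : LevelStepW L')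
    (hfirst : FirstLevelW L₁) (hlk : ChainLink L₂) (a : ℕ) (c : List ℕ)
    (hc : ∀ x ∈ a :: c, 2 ≤ x) (hcc : (a :: c).IsChain (· < ·)) :
    ∀ᶠ l in nestF c.length, (∃ L : ℝ, IHw (E := Sp c) (trn a c) a L (Ge l (a :: c))) ∧
      HEqv (P (a :: c)) (Ge l (a :: c)) := by
  filter_upwards [chain_to_gate hstep hfirst hlk c a hc hcc] with l hl
  obtain ⟨L, hIH, lam₀, hT⟩ := hl
  obtain ⟨lam₁, h1⟩ := hP0 (a :: c) (List.cons_ne_nil _ _) hc
  refine ⟨⟨L, hIH⟩, (h1 (max lam₀ lam₁) (le_max_right _ _)).trans ?_⟩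
  exact (hT (max lam₀ lam₁) (le_max_left _ _)).hEqv

end Vale.Agent.P268.T.RV
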