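import Vale.Agent.P268.T.H128.Move
import Vale.Agent.P268.T.H830.StageD

/-!
# P268, topological half, route V: `GateMove`
-/

namespace Vale.Agent.P268.T.RV

open Set Filter Topology

/-- **`GateMove`**: from the gate form to the ray form. -/
theorem gateMove : GateMove := by
  refine gateMove_of_stageD fun N _ _ _ => ?_
  obtain ⟨-, -, -, ε₁, h1, h2⟩ := exists_stageD N
  exact ⟨ε₁, h1, fun ε hε => h2 ε hε⟩

end Vale.Agent.P268.T.RV
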