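import Vale.Agent.P268.T.H128.PolarLip
import Vale.Agent.P268.T.H128.IndW

/-!
# P268, topological half, route V: the first level
-/

set_option linter.unusedSectionVars false

namespace Vale.Agent.P268.T.RV.First

open Set Filter Topology

/-- The phase of the first level at time `t`. -/
noncomputable def pf (a : ℕ) (t θ : ℝ) : ℝ := (1 - t) * (a * θ) + t * (prof a θ - 2 * Real.pi)

theorem prof_neg_pi (T : ℕ) : prof T (-Real.pi) = Real.pi := by
  have h := prof_eq_rest (T := T) (k := 0) (Nat.zero_le _) (θ := -Real.pi)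
    (by rw [xc_neg_pi]; simp) (by rw [xc_neg_pi]; simp)
  simpa using h

theorem prof_pi (T : ℕ) : prof T Real.pi = Real.pi + 2 * Real.pi * T :=
  prof_eq_rest (le_refl T) (by rw [xc_pi]; linarith) (by rw [xc_pi])

theorem pf_lip {a : ℕ} (ha : 1 ≤ a) {t : ℝ} (ht : t ∈ Icc (0 : ℝ) 1) (θ θ' : ℝ) :
    |pf a t θ - pf a t θ'| ≤ a * (2 * a + 1) * |θ - θ'| := by
  have e : pf a t θ - pf a t θ' = (1 - t) * (a * (θ - θ')) + t * (prof a θ - prof a θ') := by
    rw [pf, pf]; ring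
  have ha' : (1 : ℝ) ≤ a := by exact_mod_cast ha
  rw [e]
  refine (abs_add_le _ _).trans ?_
  rw [abs_mul, abs_mul, abs_mul, abs_of_nonneg (by linarith [ht.2] : 0 ≤ 1 - t),
    abs_of_nonneg ht.1, abs_of_nonneg (by linarith : (0 : ℝ) ≤ a)]
  have h1 := mul_le_mul_of_nonneg_left (prof_lip a θ θ') ht.1
  have h2 : (1 - t) * (a * |θ - θ'|) ≤ (1 - t) * (a * (2 * a + 1) * |θ - θ'|) := by
    refine mul_le_mul_of_nonneg_left ?_ (by linarith [ht.2])
    refine mul_le_mul_of_nonneg_right ?_ (abs_nonneg _)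
    nlinarith
  calc _ ≤ (1 - t) * (a * (2 * a + 1) * |θ - θ'|) + t * (a * (2 * a + 1) * |θ - θ'|) :=
        add_le_add h2 h1
    _ = _ := by ring

theorem pf_per (a : ℕ) (t : ℝ) : eI (pf a t Real.pi) = eI (pf a t (-Real.pi)) := by
  have e : pf a t Real.pi = pf a t (-Real.pi) + 2 * Real.pi * ((a : ℤ) : ℝ) := by
    rw [pf, pf, prof_pi, prof_neg_pi]; push_cast; ring
  rw [e, eI_add_int]

theorem pf_cont (a : ℕ) (θ : ℝ) : Continuous fun t => pf a t θ := by
  unfold pf; fun_prop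

/-- Angles of quotients. -/
theorem arg_div_int {z z₀ : ℂ} (hz : z ≠ 0) (hz₀ : z₀ ≠ 0) :
    ∃ m : ℤ, Complex.arg z = Complex.arg z₀ + Complex.arg (z / z₀) + 2 * Real.pi * m := by
  have h1 := Complex.arg_mul_coe_angle hz₀ (div_ne_zero hz hz₀)
  rw [mul_div_cancel₀ _ hz₀, ← Real.Angle.coe_add, Real.Angle.angle_eq_iff_two_pi_dvd_sub] at h1
  obtain ⟨m, hm⟩ := h1
  exact ⟨m, by linarith⟩

/-- Local lifts of the profile. -/
theorem prof_lift (a : ℕ) {z₀ : ℂ} (hz₀ : z₀ ≠ 0) :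
    ∃ δ > 0, ∃ q : ℝ → ℝ, q 0 = prof a (Complex.arg z₀) ∧
      (∀ θ θ', |θ| < δ → |θ'| < δ → θ ≤ θ' →
        0 ≤ q θ' - q θ ∧ q θ' - q θ ≤ a * (2 * a + 1) * (θ' - θ)) ∧
      (∀ z : ℂ, z ≠ 0 → |Complex.arg (z / z₀)| < δ → ∃ m : ℤ,
        Complex.arg z = Complex.arg z₀ + Complex.arg (z / z₀) + 2 * Real.pi * m ∧
        prof a (Complex.arg z) = q (Complex.arg (z / z₀)) + 2 * Real.pi * a * m) ∧
      (eI (prof a (Complex.arg z₀)) ≠ -1 → ∀ θ θ', |θ| < δ → |θ'| < δ →
        q θ' - q θ = (2 * a + 1) * (θ' - θ)) := by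
  have hpi := Real.pi_pos
  have hA : (0 : ℝ) < 2 * a + 1 := by positivity
  have harg := arg_mem_Icc z₀
  rcases lt_or_eq_of_le (Complex.arg_le_pi z₀) with hlt | heq
  · -- the angle is not `π`
    have hgt := Complex.neg_pi_lt_arg z₀
    set θ₀ := Complex.arg z₀ with hθ₀
    have hq : ∀ θ θ' : ℝ, θ ≤ θ' → 0 ≤ prof a (θ₀ + θ') - prof a (θ₀ + θ) ∧
        prof a (θ₀ + θ') - prof a (θ₀ + θ) ≤ a * (2 * a + 1) * (θ' - θ) := by
      intro θ θ' h
      have h1 : prof a (θ₀ + θ) ≤ prof a (θ₀ + θ') := prof_mono (by linarith)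
      refine ⟨by linarith, ?_⟩
      have h2 := (le_abs_self _).trans (prof_lip a (θ₀ + θ') (θ₀ + θ))
      rwa [add_sub_add_left_eq_sub, abs_of_nonneg (by linarith)] at h2
    have hm : ∀ δ : ℝ, δ ≤ Real.pi - θ₀ → δ ≤ Real.pi + θ₀ → ∀ z : ℂ, z ≠ 0 →
        |Complex.arg (z / z₀)| < δ → ∃ m : ℤ,
        Complex.arg z = θ₀ + Complex.arg (z / z₀) + 2 * Real.pi * m ∧
        prof a (Complex.arg z) = prof a (θ₀ + Complex.arg (z / z₀)) + 2 * Real.pi * a * m := by
      intro δ h1 h2 z hz hδ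
      obtain ⟨m, hm⟩ := arg_div_int hz hz₀
      obtain ⟨h3, h4⟩ := abs_lt.mp hδ
      have h5 := Complex.neg_pi_lt_arg z
      have h6 := Complex.arg_le_pi z
      have h7 : m = 0 := by
        have h8 : 2 * Real.pi * (m : ℝ) < 2 * Real.pi * 1 := by linarith
        have h9 : 2 * Real.pi * (-1 : ℝ) < 2 * Real.pi * m := by linarith
        have h10 : (m : ℝ) < 1 := lt_of_mul_lt_mul_left h8 (by linarith)
        have h11 : (-1 : ℝ) < m := lt_of_mul_lt_mul_left h9 (by linarith)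
        have h12 : m < 1 := by exact_mod_cast h10
        have h13 : -1 < m := by exact_mod_cast h11
        omega
      subst h7
      refine ⟨0, hm, ?_⟩
      rw [hm]; simp [hθ₀]
    have hmem0 : 0 ≤ xc a θ₀ := by
      have := xc_mono (T := a) harg.1
      rwa [xc_neg_pi] at this
    have hmem1 : xc a θ₀ ≤ 2 * a + 1 := by
      have := xc_mono (T := a) harg.2
      rwa [xc_pi] at this
    rcases rest_or_turn hmem0 hmem1 with ⟨k, hk, h1, h2⟩ | ⟨k, hk, h1, h2⟩
    · -- a rest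
      refine ⟨min (Real.pi - θ₀) (Real.pi + θ₀), lt_min (by linarith) (by linarith),
        fun θ => prof a (θ₀ + θ), by simp, fun θ θ' _ _ h => hq θ θ' h,
        hm _ (min_le_left _ _) (min_le_right _ _), fun hne => absurd ?_ hne⟩
      rw [prof_eq_rest hk h1 h2]
      have := eI_add_int Real.pi (k : ℤ)
      push_cast at this
      rw [this, eI_pi]
    · -- an open turn
      set ρ : ℝ := min (xc a θ₀ - (2 * k + 1)) (2 * k + 2 - xc a θ₀) with hρ
      have hρ0 : 0 < ρ := lt_min (by linarith) (by linarith)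
      set δ₁ : ℝ := ρ * (2 * Real.pi) / (2 * a + 1) with hδ₁
      have hδ₁0 : 0 < δ₁ := by positivity
      refine ⟨min (min (Real.pi - θ₀) (Real.pi + θ₀)) δ₁,
        lt_min (lt_min (by linarith) (by linarith)) hδ₁0,
        fun θ => prof a (θ₀ + θ), by simp, fun θ θ' _ _ h => hq θ θ' h,
        hm _ ((min_le_left _ _).trans (min_le_left _ _))
          ((min_le_left _ _).trans (min_le_right _ _)), fun _ θ θ' hθ hθ' => ?_⟩
      have hx : ∀ θ : ℝ, |θ| < min (min (Real.pi - θ₀) (Real.pi + θ₀)) δ₁ →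
          2 * (k : ℝ) + 1 ≤ xc a (θ₀ + θ) ∧ xc a (θ₀ + θ) ≤ 2 * k + 2 := by
        intro θ hθ
        have h3 := xc_sub a (θ₀ + θ) θ₀
        rw [add_sub_cancel_left] at h3
        have h4 : |(2 * (a : ℝ) + 1) / (2 * Real.pi) * θ| < ρ := by
          rw [abs_mul, abs_of_nonneg (by positivity)]
          have h5 : |θ| < ρ * (2 * Real.pi) / (2 * a + 1) := hθ.trans_le (min_le_right _ _)
          rw [lt_div_iff₀ hA] at h5
          rw [div_mul_eq_mul_div, div_lt_iff₀ (by positivity)]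
          linarith
        obtain ⟨h6, h7⟩ := abs_lt.mp h4
        have h8 : ρ ≤ xc a θ₀ - (2 * k + 1) := min_le_left _ _
        have h9 : ρ ≤ 2 * k + 2 - xc a θ₀ := min_le_right _ _
        constructor <;> linarith
      obtain ⟨u1, u2⟩ := hx θ hθ
      obtain ⟨v1, v2⟩ := hx θ' hθ'
      show prof a (θ₀ + θ') - prof a (θ₀ + θ) = _
      rw [prof_eq_turn hk u1 u2, prof_eq_turn hk v1 v2]
      have h3 := xc_sub a (θ₀ + θ') (θ₀ + θ)
      rw [add_sub_add_left_eq_sub] at h3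
      have h4 : 2 * Real.pi * (xc a (θ₀ + θ') - xc a (θ₀ + θ)) = (2 * a + 1) * (θ' - θ) := by
        rw [h3]; field_simp
      linarith
  · -- the cut
    have h0 : prof a (Complex.arg z₀) = Real.pi + 2 * Real.pi * a := by rw [heq, prof_pi]
    refine ⟨Real.pi / (2 * a + 1), by positivity, fun _ => Real.pi + 2 * Real.pi * a, h0.symm,
      fun θ θ' _ _ h => ?_, fun z hz hδ => ?_, fun hne => absurd ?_ hne⟩
    · rw [sub_self]
      exact ⟨le_rfl, mul_nonneg (by positivity) (by linarith)⟩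
    · obtain ⟨m, hm⟩ := arg_div_int hz hz₀
      rw [heq] at hm ⊢
      set θ := Complex.arg (z / z₀) with hθ
      obtain ⟨h3, h4⟩ := abs_lt.mp hδ
      have h5 := Complex.neg_pi_lt_arg z
      have h6 := Complex.arg_le_pi z
      have hle : Real.pi / (2 * a + 1) ≤ Real.pi := by
        rw [div_le_iff₀ hA]
        have : (0 : ℝ) ≤ a := by positivity
        nlinarith
      have h7 : m = 0 ∨ m = -1 := by
        have h8 : 2 * Real.pi * (m : ℝ) < 2 * Real.pi * 1 := by linarith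
        have h9 : 2 * Real.pi * (-2 : ℝ) < 2 * Real.pi * m := by linarith
        have h10 : (m : ℝ) < 1 := lt_of_mul_lt_mul_left h8 (by linarith)
        have h11 : (-2 : ℝ) < m := lt_of_mul_lt_mul_left h9 (by linarith)
        have h12 : m < 1 := by exact_mod_cast h10
        have h13 : -2 < m := by exact_mod_cast h11
        omega
      refine ⟨m, hm, ?_⟩
      have hb : |(2 * (a : ℝ) + 1) / (2 * Real.pi) * θ| ≤ 1 / 2 := by
        rw [abs_mul, abs_of_nonneg (by positivity)]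
        have h5 : |θ| < Real.pi / (2 * a + 1) := hδ
        rw [lt_div_iff₀ hA] at h5
        rw [div_mul_eq_mul_div, div_le_iff₀ (by positivity)]
        linarith
      obtain ⟨b1, b2⟩ := abs_le.mp hb
      rcases h7 with rfl | rfl
      · have e1 : Complex.arg z = Real.pi + θ := by rw [hm]; simp
        have hθ0 : θ ≤ 0 := by linarith
        have h8 := xc_sub a (Real.pi + θ) Real.pi
        rw [add_sub_cancel_left, xc_pi] at h8
        have h9 : (2 * (a : ℝ) + 1) / (2 * Real.pi) * θ ≤ 0 :=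
          mul_nonpos_of_nonneg_of_nonpos (by positivity) hθ0
        rw [e1, prof_eq_rest (k := a) le_rfl (by linarith) (by linarith)]
        simp
      · have e1 : Complex.arg z = -Real.pi + θ := by rw [hm]; push_cast; ring
        have hθ0 : 0 ≤ θ := by linarith
        have h8 := xc_sub a (-Real.pi + θ) (-Real.pi)
        rw [add_sub_cancel_left, xc_neg_pi] at h8
        have h9 : 0 ≤ (2 * (a : ℝ) + 1) / (2 * Real.pi) * θ := mul_nonneg (by positivity) hθ0
        rw [e1, prof_eq_rest (k := 0) (Nat.zero_le _) (by push_cast; linarith)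
          (by push_cast; linarith)]
        push_cast; ring
    · rw [h0]
      have := eI_add_int Real.pi (a : ℤ)
      push_cast at this
      rw [this, eI_pi]

/-- Regularity of the first level. -/
theorem first_reg {a : ℕ} (ha : 1 ≤ a) {t₀ : ℝ} (ht₀ : t₀ ∈ Icc (0 : ℝ) 1) {z₀ : ℂ}
    (hz₀ : z₀ ≠ 0) (hre : t₀ < 1 ∨ eI (prof a (Complex.arg z₀)) ≠ -1) :
    RegAt (Icc (0 : ℝ) 1) (fun t z => ((‖z‖ : ℝ) : ℂ) * eI (pf a t (Complex.arg z))) t₀ z₀ := by
  have hpi := Real.pi_pos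
  have ha' : (1 : ℝ) ≤ a := by exact_mod_cast ha
  obtain ⟨δ, hδ, q, hq0, hq, hlift, hslope⟩ := prof_lift a hz₀
  -- the local phase
  set ψ : ℝ → ℝ → ℝ := fun t θ => (1 - t) * (a * (Complex.arg z₀ + θ)) +
    t * (q θ - 2 * Real.pi) with hψ
  have hinc : ∀ t θ θ', ψ t θ' - ψ t θ = (1 - t) * (a * (θ' - θ)) + t * (q θ' - q θ) := by
    intro t θ θ'; simp only [hψ]; ring
  -- lower slope
  obtain ⟨σ, hσ, hlow⟩ : ∃ σ > 0, ∀ᶠ t in 𝓝[Icc (0 : ℝ) 1] t₀, ∀ θ θ', |θ| < δ → |θ'| < δ →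
      θ ≤ θ' → σ * (θ' - θ) ≤ ψ t θ' - ψ t θ := by
    rcases hre with h | h
    · refine ⟨(1 - t₀) / 2, by linarith, ?_⟩
      have h1 : ∀ᶠ t in 𝓝[Icc (0 : ℝ) 1] t₀, t < (1 + t₀) / 2 :=
        nhdsWithin_le_nhds (gt_mem_nhds (by linarith))
      filter_upwards [h1, self_mem_nhdsWithin] with t h2 h3 θ θ' hθ hθ' hle
      rw [hinc]
      have h4 := (hq θ θ' hθ hθ' hle).1
      have h5 : 0 ≤ θ' - θ := by linarith
      have h6 : (1 - t₀) / 2 * (θ' - θ) ≤ (1 - t) * (a * (θ' - θ)) := by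
        rw [← mul_assoc]
        refine mul_le_mul_of_nonneg_right ?_ h5
        nlinarith
      have h7 : 0 ≤ t * (q θ' - q θ) := mul_nonneg h3.1 h4
      linarith
    · refine ⟨1, one_pos, ?_⟩
      filter_upwards [self_mem_nhdsWithin] with t h3 θ θ' hθ hθ' hle
      rw [hinc, hslope h θ θ' hθ hθ']
      have h5 : 0 ≤ θ' - θ := by linarith
      have h6 : 1 * (θ' - θ) ≤ ((1 - t) * a + t * (2 * a + 1)) * (θ' - θ) := by
        refine mul_le_mul_of_nonneg_right ?_ h5
        nlinarith [h3.1, h3.2]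
      linarith
  refine RegAt.of_polar ht₀ hz₀ (ψ := ψ) (σ := σ) (Λ := a * (2 * a + 1)) (δ := δ) hσ hδ ?_ ?_ ?_
  · filter_upwards [hlow, self_mem_nhdsWithin] with t h1 h2 θ θ' hθ hθ' hle
    refine ⟨h1 θ θ' hθ hθ' hle, ?_⟩
    rw [hinc]
    have h3 := (hq θ θ' hθ hθ' hle).2
    have h5 : 0 ≤ θ' - θ := by linarith
    have h6 := mul_le_mul_of_nonneg_left h3 h2.1
    have h7 : (1 - t) * (a * (θ' - θ)) ≤ (1 - t) * (a * (2 * a + 1) * (θ' - θ)) := by
      refine mul_le_mul_of_nonneg_left ?_ (by linarith [h2.2])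
      refine mul_le_mul_of_nonneg_right ?_ h5
      nlinarith
    calc _ ≤ (1 - t) * (a * (2 * a + 1) * (θ' - θ)) + t * (a * (2 * a + 1) * (θ' - θ)) :=
          add_le_add h7 h6
      _ = _ := by ring
  · simp only [hψ]
    exact Continuous.continuousWithinAt (by fun_prop)
  · have h1 : {z : ℂ | z ≠ 0 ∧ |Complex.arg (z / z₀)| < δ} ∈ 𝓝 z₀ :=
      (eventually_ne_nhds hz₀).and (eventually_arg_small hz₀ hδ)
    refine ⟨_, h1, Eventually.of_forall fun t z hz => ?_⟩
    obtain ⟨m, hm1, hm2⟩ := hlift z hz.1 hz.2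
    congr 1
    show eI (pf a t (Complex.arg z)) = eI (ψ t (Complex.arg (z / z₀)))
    have e : pf a t (Complex.arg z) = ψ t (Complex.arg (z / z₀)) +
        2 * Real.pi * (((a : ℤ) * m : ℤ) : ℝ) := by
      rw [pf, hm2, hm1]; simp only [hψ]; push_cast; ring
    rw [e, eI_add_int]

/-- The path of the first level. -/
noncomputable def fl1 (a : ℕ) (t : ℝ) (p : Sp [] × ℂ) : ℂ :=
  ((‖p.2‖ : ℝ) : ℂ) * eI (pf a t (Complex.arg p.2))

theorem fl1_lip {a : ℕ} (ha : 1 ≤ a) {t : ℝ} (ht : t ∈ Icc (0 : ℝ) 1) (z z' : ℂ) :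
    ‖((‖z‖ : ℝ) : ℂ) * eI (pf a t (Complex.arg z)) - ((‖z'‖ : ℝ) : ℂ) * eI (pf a t (Complex.arg z'))‖
      ≤ (1 + a * (2 * a + 1) * Real.pi) * ‖z - z'‖ :=
  polar_lip (by positivity) (fun θ _ θ' _ => pf_lip ha ht θ θ') (pf_per a t) z z'

theorem fl1_tame {a : ℕ} (ha : 1 ≤ a) :
    Tame (Icc (0 : ℝ) 1) (1 + a * (2 * a + 1) * Real.pi) (fl1 a) where
  fam :=
    { cont := by
        set L : ℝ := 1 + a * (2 * a + 1) * Real.pi with hL
        have hL0 : 0 < L := by have := Real.pi_pos; positivity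
        rintro ⟨t₀, p₀⟩ ⟨ht₀, -⟩
        rw [Metric.continuousWithinAt_iff']
        intro ε hε
        have h1 : Continuous fun t => fl1 a t p₀ := by
          unfold fl1
          exact continuous_const.mul (continuous_eI.comp (pf_cont a _))
        have h2 : ∀ᶠ x : ℝ × (Sp [] × ℂ) in 𝓝[Icc (0:ℝ) 1 ×ˢ univ] (t₀, p₀),
            dist (fl1 a x.1 p₀) (fl1 a t₀ p₀) < ε / 2 := by
          have h3 : ContinuousAt (fun x : ℝ × (Sp [] × ℂ) => fl1 a x.1 p₀) (t₀, p₀) :=
            (h1.comp continuous_fst).continuousAt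
          exact nhdsWithin_le_nhds (Metric.continuousAt_iff'.mp h3 (ε / 2) (half_pos hε))
        have h4 : ∀ᶠ x : ℝ × (Sp [] × ℂ) in 𝓝[Icc (0:ℝ) 1 ×ˢ univ] (t₀, p₀),
            ‖x.2.2 - p₀.2‖ < ε / (2 * L) := by
          have h5 : ContinuousAt (fun x : ℝ × (Sp [] × ℂ) => x.2.2) (t₀, p₀) :=
            (continuous_snd.comp continuous_snd).continuousAt
          have h6 := Metric.continuousAt_iff'.mp h5 (ε / (2 * L)) (by positivity)
          refine nhdsWithin_le_nhds (h6.mono fun x hx => ?_)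
          rwa [dist_eq_norm] at hx
        filter_upwards [h2, h4, self_mem_nhdsWithin] with x h5 h6 h7
        have h8 : dist (fl1 a x.1 x.2) (fl1 a x.1 p₀) < ε / 2 := by
          rw [dist_eq_norm]
          refine (fl1_lip ha h7.1 x.2.2 p₀.2).trans_lt ?_
          rw [← hL]
          rw [lt_div_iff₀ (by positivity)] at h6
          linarith
        calc dist (fl1 a x.1 x.2) (fl1 a t₀ p₀)
            ≤ dist (fl1 a x.1 x.2) (fl1 a x.1 p₀) + dist (fl1 a x.1 p₀) (fl1 a t₀ p₀) :=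
              dist_triangle _ _ _
          _ < ε := by linarith
      hom := fun t _ r hr p => by
        show ((‖r • p.2‖ : ℝ) : ℂ) * eI (pf a t (Complex.arg (r • p.2))) =
          r • (((‖p.2‖ : ℝ) : ℂ) * eI (pf a t (Complex.arg p.2)))
        rcases eq_or_lt_of_le hr with h | h
        · subst h; simp
        · rw [Complex.real_smul, Complex.arg_real_mul _ h, norm_mul, Complex.norm_real,
            Real.norm_eq_abs, abs_of_pos h, Complex.real_smul]
          push_cast; ring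
      reg := by
        rintro t₀ ht₀ ⟨X₀, z₀⟩ hne h0
        have hX : X₀ = 0 := Subsingleton.elim (α := EuclideanSpace ℂ (Fin 0)) _ _
        have hz : z₀ ≠ 0 := by
          rintro rfl
          exact hne (Prod.ext hX rfl)
        have hz' : 0 < ‖z₀‖ := norm_pos_iff.mpr hz
        have hcond : t₀ < 1 ∨ eI (prof a (Complex.arg z₀)) ≠ -1 := by
          by_contra hcon
          push Not at hcon
          have ht1 : t₀ = 1 := le_antisymm ht₀.2 hcon.1
          subst ht1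
          have e : pf a 1 (Complex.arg z₀) = prof a (Complex.arg z₀) +
              2 * Real.pi * ((-1 : ℤ) : ℝ) := by
            rw [pf]; push_cast; ring
          have h1 : (fl1 a 1 (X₀, z₀)).re = -‖z₀‖ := by
            show (((‖z₀‖ : ℝ) : ℂ) * eI (pf a 1 (Complex.arg z₀))).re = _
            rw [e, eI_add_int, hcon.2, Complex.re_ofReal_mul]
            simp
          rw [h1] at h0
          linarith
        have h1 := first_reg ha ht₀ hz hcond
        refine RegAt.snd ?_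
        exact RegAt.param (s := Icc (0:ℝ) 1) (φ := fun tb : ℝ × Sp [] => tb.1)
          (F := fun t z => ((‖z‖ : ℝ) : ℂ) * eI (pf a t (Complex.arg z)))
          continuousWithinAt_fst (fun p hp => hp.1) h1 }
  lip := fun t ht X y y' => fl1_lip ha ht y y'
  zreg := fun t₀ _ X₀ hX₀ _ =>
    absurd (Subsingleton.elim (α := EuclideanSpace ℂ (Fin 0)) _ _) hX₀

theorem fl1_zero (a : ℕ) (lam : ℝ) (p : Sp [] × ℂ) : fl1 a 0 p = Fl lam [a] p := by
  show ((‖p.2‖ : ℝ) : ℂ) * eI (pf a 0 (Complex.arg p.2)) = ((‖p.2‖ : ℝ) : ℂ) * ph p.2 ^ a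
  rcases eq_or_ne p.2 0 with h | h
  · rw [h]; simp
  · congr 1
    have h1 : ph p.2 = eI (Complex.arg p.2) := by
      rw [ph]
      have h2 : ((‖p.2‖ : ℝ) : ℂ) ≠ 0 := Complex.ofReal_ne_zero.mpr (norm_ne_zero_iff.mpr h)
      rw [div_eq_iff h2, mul_comm]
      exact (arg_polar h).symm
    rw [h1]
    have e : pf a 0 (Complex.arg p.2) = a * Complex.arg p.2 := by rw [pf]; ring
    rw [e]
    simp only [eI]
    rw [← Complex.exp_nat_mul]
    congr 1
    push_cast; ring

theorem fl1_one (a : ℕ) (l : List ℝ) (p : Sp [] × ℂ) : fl1 a 1 p = Ge l [a] p := by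
  show ((‖p.2‖ : ℝ) : ℂ) * eI (pf a 1 (Complex.arg p.2)) = ((‖p.2‖ : ℝ) : ℂ) * eI (Sph a p.2)
  have e : pf a 1 (Complex.arg p.2) = Sph a p.2 := by rw [pf, Sph]; ring
  rw [e]

end First

open First Set in
/-- **The first level.** -/
theorem firstLevelW : FirstLevelW fun a => 1 + a * (2 * a + 1) * Real.pi := by
  intro a ha lam l
  have ha1 : 1 ≤ a := by omega
  have hT := fl1_tame ha1
  have e0 : fl1 a 0 = Fl lam [a] := funext fun p => fl1_zero a lam p
  have e1 : fl1 a 1 = Ge l [a] := funext fun p => fl1_one a l p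
  refine ⟨?_, le_rfl, ?_, fun X y _ => ?_⟩
  · rw [← e0, ← e1]; exact TEqv.of_path hT
  · rw [← e1]; exact hT.at (right_mem_Icc.mpr zero_le_one)
  · show ((‖y‖ : ℝ) : ℂ) * eI (Sph a y) =
      ((‖(0 : ℂ)‖ : ℝ) : ℂ) * eI (Sph a 0) + ((‖y‖ : ℝ) : ℂ) * eI (Sph a y)
    simp

end Vale.Agent.P268.T.RV
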