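import Vale.Agent.P268.T.H128.TEqv
import Vale.Agent.P268.T.H548.Defs
import Vale.Agent.P268.T.H266.Prof

/-!
# P268, topological half, route V: the list induction

`nestF n`: the filter of nested `eventually`s on lists of `n` parameters (the head is the parameter
chosen last).  `Fe l c`: the end function of the chain `c` with parameters `l`.  `LevelStep`: one
level.  `chain_to_end`: link chains are tame equivalent to the end functions.
-/

set_option linter.unusedSectionVars false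

namespace Vale.Agent.P268.T.RV

open Set Filter Topology

/-- The filter of nested `eventually`s: `∀ᶠ K_1, ∀ᶠ K_2, …, ∀ᶠ K_n`, lists `[K_n, …, K_1]`. -/
def nestF : ℕ → Filter (List ℝ)
  | 0 => pure []
  | n + 1 => (nestF n).bind fun l => Filter.map (fun K => K :: l) atTop

theorem eventually_nestF_zero {P : List ℝ → Prop} : (∀ᶠ l in nestF 0, P l) ↔ P [] := by
  show (∀ᶠ l in pure [], P l) ↔ P []
  rw [eventually_pure]

theorem eventually_nestF_succ {n : ℕ} {P : List ℝ → Prop} :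
    (∀ᶠ l in nestF (n + 1), P l) ↔ ∀ᶠ l in nestF n, ∀ᶠ K in atTop, P (K :: l) := by
  show (∀ᶠ l in (nestF n).bind _, P l) ↔ _
  rw [eventually_bind]
  simp only [eventually_map]

instance nestF_neBot (n : ℕ) : (nestF n).NeBot := by
  induction n with
  | zero => exact pure_neBot
  | succ n ih =>
    show NeBot (Filter.bind (nestF n) _)
    refine ⟨fun h => ?_⟩
    have h1 : ∀ᶠ l in nestF (n + 1), False := by
      show ∀ᶠ l in (nestF n).bind _, False
      rw [h]; exact eventually_bot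
    rw [eventually_nestF_succ] at h1
    obtain ⟨l, hl⟩ := h1.exists
    obtain ⟨K, hK⟩ := hl.exists
    exact hK

/-- The number of turns of the profile of the head variable of the chain `b :: c`. -/
def trn (b : ℕ) : List ℕ → ℕ
  | [] => b
  | _ :: _ => b + 1

/-- The end function of route V: parameters `l`, chain `c`. -/
noncomputable def Fe : List ℝ → ∀ c : List ℕ, Sp c → ℂ
  | _, [] => fun _ => 0
  | _, [a] => fun p => ((‖p.2‖ : ℝ) : ℂ) * eI (Sph a p.2)
  | l, a :: b :: c => fun p =>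
      lev (E := Sp c) (trn b c) a (Fe l.tail (b :: c)) l.headI 1 p

theorem Fe_single (l : List ℝ) (a : ℕ) (p : Sp [] × ℂ) :
    Fe l [a] p = ((‖p.2‖ : ℝ) : ℂ) * eI (Sph a p.2) := rfl

theorem Fe_cons (K : ℝ) (l : List ℝ) (a b : ℕ) (c : List ℕ) (p : (Sp c × ℂ) × ℂ) :
    Fe (K :: l) (a :: b :: c) p = lev (trn b c) a (Fe l (b :: c)) K 1 p := rfl

/-- The chain link (548). -/
noncomputable abbrev clk : ℝ → ℕ → ℂ → ℂ → ℂ := Vale.Agent.P268.T.lk

/-- One level (all levels but the first): `L'` is the Lipschitz constant of the new link. -/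
def LevelStep (L' : ℕ → ℝ) : Prop :=
  ∀ (E : Type) [NormedAddCommGroup E] [NormedSpace ℝ E] [FiniteDimensional ℝ E]
    (T N a : ℕ) (L : ℝ) (B : E × ℂ → ℂ), IH T N L B → 2 ≤ a → a + 1 ≤ N →
    ∃ lam₁ : ℝ, ∀ lam ≥ lam₁,
      TEqv (L' a) (fun p : (E × ℂ) × ℂ => B p.1 + clk lam a p.1.2 p.2) (lev T a B lam 1) ∧
      IH (a + 1) a (L' a) (lev T a B lam 1)

/-- The first level. -/
def FirstLevel (L₁ : ℕ → ℝ) : Prop :=
  ∀ a : ℕ, 2 ≤ a → ∀ (lam : ℝ) (l : List ℝ),
    TEqv (L₁ a) (Fl lam [a] : Sp [] × ℂ → ℂ) (Fe l [a]) ∧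
      IH (E := Sp []) a a (L₁ a) (Fe l [a])

/-- The chain links are links. -/
def ChainLink (L₂ : ℕ → ℝ) : Prop :=
  ∀ (L : ℝ) (a : ℕ), 2 ≤ a → ∃ lam₀ : ℝ, Link (Ici lam₀) L (L₂ a) (fun lam => clk lam a)

theorem IH.mono_lip {E : Type*} [NormedAddCommGroup E] [NormedSpace ℝ E] {T N : ℕ} {L L' : ℝ}
    {B : E × ℂ → ℂ} (h : IH T N L B) (hL : L ≤ L') : IH T N L' B :=
  ⟨h.le, h.tame.mono_lip hL, h.cone⟩

/-- **The list induction.** -/
theorem chain_to_end {L' L₁ L₂ : ℕ → ℝ} (hstep : LevelStep L') (hfirst : FirstLevel L₁)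
    (hlk : ChainLink L₂) : ∀ (c : List ℕ) (a : ℕ), (∀ x ∈ a :: c, 2 ≤ x) →
    (a :: c).IsChain (· < ·) → ∀ᶠ l in nestF c.length, ∃ L : ℝ,
      IH (E := Sp c) (trn a c) a L (Fe l (a :: c)) ∧
      ∃ lam₀ : ℝ, ∀ lam ≥ lam₀, TEqv (E := Sp c) L (Fl lam (a :: c)) (Fe l (a :: c)) := by
  intro c
  induction c with
  | nil =>
    intro a ha _
    show ∀ᶠ l in nestF 0, _
    rw [eventually_nestF_zero]
    have ha2 : 2 ≤ a := ha a List.mem_cons_self
    exact ⟨L₁ a, (hfirst a ha2 0 []).2, 0, fun lam _ => (hfirst a ha2 lam []).1⟩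
  | cons b c ih =>
    intro a ha hc
    have hab : a < b := by
      cases hc with
      | cons_cons h _ => exact h
    have hbc : (b :: c).IsChain (· < ·) := by
      cases hc with
      | cons_cons _ h => exact h
    have ha2 : 2 ≤ a := ha a List.mem_cons_self
    have h1 := ih b (fun x hx => ha x (List.mem_cons_of_mem _ hx)) hbc
    show ∀ᶠ l in nestF (c.length + 1), _
    rw [eventually_nestF_succ]
    filter_upwards [h1] with l hl
    obtain ⟨L, hIH, lam₀, hT⟩ := hl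
    obtain ⟨lam₁, hlev⟩ := hstep (Sp c) (trn b c) b a L (Fe l (b :: c)) hIH ha2 hab
    obtain ⟨lam₂, hlink⟩ := hlk L a ha2
    filter_upwards [eventually_ge_atTop (max lam₁ lam₂)] with K hK
    obtain ⟨hK1, hK2⟩ := hlev K ((le_max_left _ _).trans hK)
    have hK3 : lam₂ ≤ K := (le_max_right _ _).trans hK
    have hF : (Fe (K :: l) (a :: b :: c) : Sp (b :: c) × ℂ → ℂ) =
        lev (E := Sp c) (trn b c) a (Fe l (b :: c)) K 1 := rfl
    rw [hF]
    refine ⟨max (L₂ a) (L' a), hK2.mono_lip (le_max_right _ _), max lam₀ lam₂, fun lam hlam => ?_⟩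
    have hl0 : lam₀ ≤ lam := (le_max_left _ _).trans hlam
    have hl2 : lam₂ ≤ lam := (le_max_right _ _).trans hlam
    -- attach the link to the path below
    have s1 : TEqv (L₂ a) (fun p : (Sp c × ℂ) × ℂ => Fl lam (b :: c) p.1 + clk lam a p.1.2 p.2)
        (fun p => Fe l (b :: c) p.1 + clk lam a p.1.2 p.2) :=
      (hT lam hl0).tail (hlink.param (s' := (univ : Set Unit)) (φ := fun _ => lam)
        continuousOn_const (fun _ _ => hl2))
    -- move the slope of the link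
    have s2 : TEqv (L₂ a) (fun p : (Sp c × ℂ) × ℂ => Fe l (b :: c) p.1 + clk lam a p.1.2 p.2)
        (fun p => Fe l (b :: c) p.1 + clk K a p.1.2 p.2) := by
      have h2 : Tame (Ici lam₂) L (fun _ : ℝ => (Fe l (b :: c) : Sp c × ℂ → ℂ)) :=
        TFun.const hIH.tame _
      exact TEqv.of_fam isPreconnected_Ici (h2.tail hlink) hl2 hK3
    exact ((s1.trans s2).mono_lip (le_max_left _ _)).trans (hK1.mono_lip (le_max_right _ _))

/-- Block P0: chain polynomials are equivalent to link chains. -/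
def BlockP0 : Prop :=
  ∀ c : List ℕ, c ≠ [] → (∀ a ∈ c, 2 ≤ a) → ∃ lam₀ : ℝ, ∀ lam ≥ lam₀, HEqv (P c) (Fl lam c)

/-- **Route V, first half**: the chain polynomial is equivalent to the end function. -/
theorem chain_equiv_end {L' L₁ L₂ : ℕ → ℝ} (hP0 : BlockP0) (hstep : LevelStep L')
    (hfirst : FirstLevel L₁) (hlk : ChainLink L₂) (a : ℕ) (c : List ℕ)
    (hc : ∀ x ∈ a :: c, 2 ≤ x) (hcc : (a :: c).IsChain (· < ·)) :
    ∀ᶠ l in nestF c.length, (∃ L : ℝ, IH (E := Sp c) (trn a c) a L (Fe l (a :: c))) ∧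
      HEqv (P (a :: c)) (Fe l (a :: c)) := by
  filter_upwards [chain_to_end hstep hfirst hlk c a hc hcc] with l hl
  obtain ⟨L, hIH, lam₀, hT⟩ := hl
  obtain ⟨lam₁, h1⟩ := hP0 (a :: c) (List.cons_ne_nil _ _) hc
  refine ⟨⟨L, hIH⟩, (h1 (max lam₀ lam₁) (le_max_right _ _)).trans ?_⟩
  exact (hT (max lam₀ lam₁) (le_max_left _ _)).hEqv

end Vale.Agent.P268.T.RV
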