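import Vale.Agent.P268.T.H128.Polar1
import Vale.Agent.P268.T.H266.Prof

/-!
# P268, topological half, route V: Lipschitz bounds for polar functions, facts on profiles
-/

set_option linter.unusedSectionVars false

namespace Vale.Agent.P268.T.RV

open Set Filter Topology

/-! ### `eI` -/

theorem norm_eI (x : ℝ) : ‖eI x‖ = 1 := Complex.norm_exp_I_mul_ofReal x

theorem eI_add (x y : ℝ) : eI (x + y) = eI x * eI y := by
  simp only [eI]
  rw [← Complex.exp_add]
  congr 1
  push_cast; ring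

theorem eI_zero : eI 0 = 1 := by simp [eI]

theorem eI_pi : eI Real.pi = -1 := by
  simp only [eI]; rw [mul_comm]; exact Complex.exp_pi_mul_I

theorem eI_two_pi_int (m : ℤ) : eI (2 * Real.pi * m) = 1 := by
  simp only [eI]
  have := Complex.exp_int_mul_two_pi_mul_I m
  rw [← this]
  congr 1
  push_cast; ring

theorem eI_add_int (x : ℝ) (m : ℤ) : eI (x + 2 * Real.pi * m) = eI x := by
  rw [eI_add, eI_two_pi_int, mul_one]

theorem eI_re (x : ℝ) : (eI x).re = Real.cos x := by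
  simp only [eI]; rw [mul_comm, Complex.exp_ofReal_mul_I_re]

theorem eI_im (x : ℝ) : (eI x).im = Real.sin x := by
  simp only [eI]; rw [mul_comm, Complex.exp_ofReal_mul_I_im]

theorem norm_eI_sub_le (x y : ℝ) : ‖eI x - eI y‖ ≤ |x - y| := by
  have h : eI x - eI y = eI y * (eI (x - y) - 1) := by
    rw [mul_sub, ← eI_add, mul_one]; congr 2; ring
  rw [h, norm_mul, norm_eI, one_mul]
  have := Real.norm_exp_I_mul_ofReal_sub_one_le (x := x - y)
  rwa [Real.norm_eq_abs] at this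

theorem norm_eI_sub (x y : ℝ) : ‖eI x - eI y‖ = 2 * |Real.sin ((x - y) / 2)| := by
  have h : eI x - eI y = eI y * (eI (x - y) - 1) := by
    rw [mul_sub, ← eI_add, mul_one]; congr 2; ring
  rw [h, norm_mul, norm_eI, one_mul]
  have := Complex.norm_exp_I_mul_ofReal_sub_one (x - y)
  simp only [eI]
  rw [this, Real.norm_eq_abs, abs_mul, abs_of_pos (by norm_num : (0:ℝ) < 2)]

theorem arg_polar {z : ℂ} (hz : z ≠ 0) : ((‖z‖ : ℝ) : ℂ) * eI (Complex.arg z) = z := by
  simp only [eI]; rw [mul_comm Complex.I]; exact Complex.norm_mul_exp_arg_mul_I z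

theorem continuous_eI : Continuous eI := by
  unfold eI
  exact Complex.continuous_exp.comp (continuous_const.mul Complex.continuous_ofReal)

/-! ### Lipschitz bounds -/

/-- A phase on the circle. -/
theorem circle_lip {p : ℝ → ℝ} {K : ℝ}
    (hp : ∀ θ ∈ Icc (-Real.pi) Real.pi, ∀ θ' ∈ Icc (-Real.pi) Real.pi,
      |p θ - p θ'| ≤ K * |θ - θ'|)
    (hper : eI (p Real.pi) = eI (p (-Real.pi))) {θ θ' : ℝ} (hθ : θ ∈ Icc (-Real.pi) Real.pi)
    (hθ' : θ' ∈ Icc (-Real.pi) Real.pi) :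
    ‖eI (p θ) - eI (p θ')‖ ≤ K * (Real.pi / 2) * ‖eI θ - eI θ'‖ := by
  have hpi := Real.pi_pos
  have hK : 0 ≤ K := by
    have h1 := hp Real.pi ⟨by linarith, le_rfl⟩ (-Real.pi) ⟨le_rfl, by linarith⟩
    have h2 : |Real.pi - -Real.pi| = 2 * Real.pi := by
      rw [sub_neg_eq_add, abs_of_pos (by linarith)]; ring
    rw [h2] at h1
    have h3 := (abs_nonneg _).trans h1
    exact nonneg_of_mul_nonneg_left h3 (by linarith)
  -- wlog
  have key : ∀ θ ∈ Icc (-Real.pi) Real.pi, ∀ θ' ∈ Icc (-Real.pi) Real.pi, θ' ≤ θ →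
      ‖eI (p θ) - eI (p θ')‖ ≤ K * (Real.pi / 2) * ‖eI θ - eI θ'‖ := by
    intro θ hθ θ' hθ' hle
    rw [norm_eI_sub θ θ']
    rcases le_or_gt (θ - θ') Real.pi with h | h
    · have h1 : ‖eI (p θ) - eI (p θ')‖ ≤ K * (θ - θ') := by
        refine (norm_eI_sub_le _ _).trans ((hp θ hθ θ' hθ').trans ?_)
        rw [abs_of_nonneg (by linarith)]
      have h2 : 2 / Real.pi * ((θ - θ') / 2) ≤ Real.sin ((θ - θ') / 2) :=
        Real.mul_le_sin (by linarith) (by linarith)
      have h3 : (θ - θ') ≤ (Real.pi / 2) * (2 * |Real.sin ((θ - θ') / 2)|) := by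
        have h4 := le_abs_self (Real.sin ((θ - θ') / 2))
        have h5 : 2 / Real.pi * ((θ - θ') / 2) = (θ - θ') / Real.pi := by field_simp
        rw [h5] at h2
        have h6 := (div_le_iff₀ hpi).mp (h2.trans h4)
        linarith
      calc ‖eI (p θ) - eI (p θ')‖ ≤ K * (θ - θ') := h1
        _ ≤ K * ((Real.pi / 2) * (2 * |Real.sin ((θ - θ') / 2)|)) :=
            mul_le_mul_of_nonneg_left h3 hK
        _ = _ := by ring
    · have h1 : ‖eI (p θ) - eI (p θ')‖ ≤ K * (2 * Real.pi - (θ - θ')) := by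
        have e : eI (p θ) - eI (p θ') = (eI (p θ) - eI (p Real.pi)) +
            (eI (p (-Real.pi)) - eI (p θ')) := by rw [hper]; ring
        rw [e]
        refine (norm_add_le _ _).trans ?_
        have h2 := (norm_eI_sub_le (p θ) (p Real.pi)).trans
          (hp θ hθ Real.pi ⟨by linarith, le_rfl⟩)
        have h3 := (norm_eI_sub_le (p (-Real.pi)) (p θ')).trans
          (hp (-Real.pi) ⟨le_rfl, by linarith⟩ θ' hθ')
        have h4 : |θ - Real.pi| = Real.pi - θ := by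
          rw [abs_of_nonpos (by linarith [hθ.2])]; ring
        have h5 : |(-Real.pi) - θ'| = θ' + Real.pi := by
          rw [abs_of_nonpos (by linarith [hθ'.1])]; ring
        rw [h4] at h2
        rw [h5] at h3
        calc _ ≤ K * (Real.pi - θ) + K * (θ' + Real.pi) := add_le_add h2 h3
          _ = _ := by ring
      have hs : Real.sin ((θ - θ') / 2) = Real.sin (Real.pi - (θ - θ') / 2) := by
        rw [Real.sin_pi_sub]
      have h2 : 2 / Real.pi * (Real.pi - (θ - θ') / 2) ≤ Real.sin (Real.pi - (θ - θ') / 2) := by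
        refine Real.mul_le_sin ?_ (by linarith)
        linarith [hθ.2, hθ'.1]
      have h3 : 2 * Real.pi - (θ - θ') ≤ (Real.pi / 2) * (2 * |Real.sin ((θ - θ') / 2)|) := by
        have h4 := le_abs_self (Real.sin ((θ - θ') / 2))
        rw [hs] at h4 ⊢
        have h5 : 2 / Real.pi * (Real.pi - (θ - θ') / 2) = (2 * Real.pi - (θ - θ')) / Real.pi := by
          field_simp
        rw [h5] at h2
        have h6 := (div_le_iff₀ hpi).mp (h2.trans h4)
        linarith
      calc ‖eI (p θ) - eI (p θ')‖ ≤ K * (2 * Real.pi - (θ - θ')) := h1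
        _ ≤ K * ((Real.pi / 2) * (2 * |Real.sin ((θ - θ') / 2)|)) :=
            mul_le_mul_of_nonneg_left h3 hK
        _ = _ := by ring
  rcases le_total θ' θ with h | h
  · exact key θ hθ θ' hθ' h
  · have := key θ' hθ' θ hθ h
    rwa [norm_sub_rev, norm_sub_rev (eI θ') (eI θ)] at this

/-- Functions `|z| g(z)` with `|g| ≤ 1` and `g` a Lipschitz function of the direction. -/
theorem norm_polar_sub_le {z z' g g' : ℂ} {K : ℝ} (hK : 0 ≤ K) (hz : z ≠ 0) (hz' : z' ≠ 0)
    (hg : ‖g‖ ≤ 1)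
    (h : ‖g - g'‖ ≤ K * ‖eI (Complex.arg z) - eI (Complex.arg z')‖) :
    ‖((‖z‖ : ℝ) : ℂ) * g - ((‖z'‖ : ℝ) : ℂ) * g'‖ ≤ (1 + 2 * K) * ‖z - z'‖ := by
  have e : ((‖z‖ : ℝ) : ℂ) * g - ((‖z'‖ : ℝ) : ℂ) * g' =
      ((‖z‖ - ‖z'‖ : ℝ) : ℂ) * g + ((‖z'‖ : ℝ) : ℂ) * (g - g') := by push_cast; ring
  have h1 : |‖z‖ - ‖z'‖| ≤ ‖z - z'‖ := abs_norm_sub_norm_le z z'
  have h2 : ‖z'‖ * ‖eI (Complex.arg z) - eI (Complex.arg z')‖ ≤ 2 * ‖z - z'‖ := by
    have e2 : ((‖z'‖ : ℝ) : ℂ) * (eI (Complex.arg z) - eI (Complex.arg z')) =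
        ((‖z'‖ - ‖z‖ : ℝ) : ℂ) * eI (Complex.arg z) + (z - z') := by
      have e3 := arg_polar hz
      have e4 := arg_polar hz'
      calc ((‖z'‖ : ℝ) : ℂ) * (eI (Complex.arg z) - eI (Complex.arg z'))
          = ((‖z'‖ - ‖z‖ : ℝ) : ℂ) * eI (Complex.arg z) +
            (((‖z‖ : ℝ) : ℂ) * eI (Complex.arg z) - ((‖z'‖ : ℝ) : ℂ) * eI (Complex.arg z')) := by
            push_cast; ring
        _ = _ := by rw [e3, e4]
    have e5 : ‖z'‖ * ‖eI (Complex.arg z) - eI (Complex.arg z')‖ =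
        ‖((‖z'‖ : ℝ) : ℂ) * (eI (Complex.arg z) - eI (Complex.arg z'))‖ := by
      rw [norm_mul, Complex.norm_real, norm_norm]
    rw [e5, e2]
    refine (norm_add_le _ _).trans ?_
    rw [norm_mul, Complex.norm_real, norm_eI, mul_one, Real.norm_eq_abs, abs_sub_comm]
    linarith
  rw [e]
  refine (norm_add_le _ _).trans ?_
  rw [norm_mul, norm_mul, Complex.norm_real, Complex.norm_real, norm_norm, Real.norm_eq_abs]
  have h3 : |‖z‖ - ‖z'‖| * ‖g‖ ≤ ‖z - z'‖ * 1 :=
    mul_le_mul h1 hg (norm_nonneg _) (norm_nonneg _)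
  have h4 : ‖z'‖ * ‖g - g'‖ ≤ K * (2 * ‖z - z'‖) := by
    calc ‖z'‖ * ‖g - g'‖ ≤ ‖z'‖ * (K * ‖eI (Complex.arg z) - eI (Complex.arg z')‖) :=
          mul_le_mul_of_nonneg_left h (norm_nonneg _)
      _ = K * (‖z'‖ * ‖eI (Complex.arg z) - eI (Complex.arg z')‖) := by ring
      _ ≤ _ := mul_le_mul_of_nonneg_left h2 hK
  linarith

theorem arg_mem_Icc (z : ℂ) : Complex.arg z ∈ Icc (-Real.pi) Real.pi :=
  ⟨(Complex.neg_pi_lt_arg z).le, Complex.arg_le_pi z⟩

/-- **Lipschitz bound for polar functions** `|z| exp (i p (arg z))`. -/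
theorem polar_lip {p : ℝ → ℝ} {K : ℝ} (hK : 0 ≤ K)
    (hp : ∀ θ ∈ Icc (-Real.pi) Real.pi, ∀ θ' ∈ Icc (-Real.pi) Real.pi,
      |p θ - p θ'| ≤ K * |θ - θ'|)
    (hper : eI (p Real.pi) = eI (p (-Real.pi))) (z z' : ℂ) :
    ‖((‖z‖ : ℝ) : ℂ) * eI (p (Complex.arg z)) - ((‖z'‖ : ℝ) : ℂ) * eI (p (Complex.arg z'))‖ ≤
      (1 + K * Real.pi) * ‖z - z'‖ := by
  have hpi := Real.pi_pos
  have hL : 1 ≤ 1 + K * Real.pi := by
    have : 0 ≤ K * Real.pi := by positivity
    linarith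
  rcases eq_or_ne z 0 with rfl | hz
  · rw [norm_zero, Complex.ofReal_zero, zero_mul, zero_sub, norm_neg, norm_mul, norm_eI, mul_one,
      Complex.norm_real, norm_norm, zero_sub, norm_neg]
    exact le_mul_of_one_le_left (norm_nonneg _) hL
  rcases eq_or_ne z' 0 with rfl | hz'
  · rw [norm_zero, Complex.ofReal_zero, zero_mul, sub_zero, norm_mul, norm_eI, mul_one,
      Complex.norm_real, norm_norm, sub_zero]
    exact le_mul_of_one_le_left (norm_nonneg _) hL
  have h1 := circle_lip hp hper (arg_mem_Icc z) (arg_mem_Icc z')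
  refine (norm_polar_sub_le (K := K * (Real.pi / 2)) (by positivity) hz hz' (norm_eI _).le
    h1).trans (le_of_eq ?_)
  ring

/-! ### Facts on profiles -/

theorem clamp01_nonneg (s : ℝ) : 0 ≤ clamp01 s := le_max_left _ _

theorem clamp01_le_one (s : ℝ) : clamp01 s ≤ 1 := max_le zero_le_one (min_le_right _ _)

theorem clamp01_mono {s t : ℝ} (h : s ≤ t) : clamp01 s ≤ clamp01 t :=
  max_le_max le_rfl (min_le_min h le_rfl)

theorem clamp01_of_le_zero {s : ℝ} (h : s ≤ 0) : clamp01 s = 0 :=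
  max_eq_left ((min_le_left _ _).trans h)

theorem clamp01_eq_one {s : ℝ} (h : 1 ≤ s) : clamp01 s = 1 := by
  rw [clamp01, min_eq_right h, max_eq_right zero_le_one]

theorem clamp01_eq_self {s : ℝ} (h0 : 0 ≤ s) (h1 : s ≤ 1) : clamp01 s = s := by
  rw [clamp01, min_eq_left h1, max_eq_right h0]

theorem clamp01_lip (s t : ℝ) : |clamp01 s - clamp01 t| ≤ |s - t| := by
  rw [clamp01, clamp01]
  calc |max 0 (min s 1) - max 0 (min t 1)| ≤ |min s 1 - min t 1| := by
        have := abs_max_sub_max_le_max (0:ℝ) (min s 1) 0 (min t 1)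
        simpa using this
    _ ≤ |s - t| := by
        have := abs_min_sub_min_le_max s 1 t 1
        simpa using this

theorem xc_sub (T : ℕ) (θ θ' : ℝ) :
    xc T θ - xc T θ' = (2 * T + 1) / (2 * Real.pi) * (θ - θ') := by
  rw [xc, xc]; ring

theorem xc_mono {T : ℕ} {θ θ' : ℝ} (h : θ ≤ θ') : xc T θ ≤ xc T θ' := by
  have hpi := Real.pi_pos
  have h1 := xc_sub T θ' θ
  have h2 : 0 ≤ (2 * (T : ℝ) + 1) / (2 * Real.pi) * (θ' - θ) :=
    mul_nonneg (by positivity) (by linarith)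
  linarith

theorem xc_neg_pi (T : ℕ) : xc T (-Real.pi) = 0 := by rw [xc]; simp

theorem xc_pi (T : ℕ) : xc T Real.pi = 2 * T + 1 := by
  have hpi := Real.pi_pos
  rw [xc]; field_simp; ring

theorem prof_mono {T : ℕ} {θ θ' : ℝ} (h : θ ≤ θ') : prof T θ ≤ prof T θ' := by
  have hpi := Real.pi_pos
  rw [prof, prof]
  have h1 : ∑ k ∈ Finset.range T, clamp01 (xc T θ - (2 * k + 1)) ≤
      ∑ k ∈ Finset.range T, clamp01 (xc T θ' - (2 * k + 1)) :=
    Finset.sum_le_sum fun k _ => clamp01_mono (sub_le_sub_right (xc_mono h) _)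
  have h2 : 0 ≤ 2 * Real.pi := by linarith
  have := mul_le_mul_of_nonneg_left h1 h2
  linarith

theorem prof_lip (T : ℕ) (θ θ' : ℝ) : |prof T θ - prof T θ'| ≤ T * (2 * T + 1) * |θ - θ'| := by
  have hpi := Real.pi_pos
  have e : prof T θ - prof T θ' = 2 * Real.pi *
      ∑ k ∈ Finset.range T, (clamp01 (xc T θ - (2 * k + 1)) - clamp01 (xc T θ' - (2 * k + 1))) := by
    rw [prof, prof, Finset.sum_sub_distrib]; ring
  rw [e, abs_mul, abs_of_pos (by linarith)]
  have h1 : |∑ k ∈ Finset.range T,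
      (clamp01 (xc T θ - (2 * k + 1)) - clamp01 (xc T θ' - (2 * k + 1)))| ≤
      ∑ _k ∈ Finset.range T, (2 * T + 1) / (2 * Real.pi) * |θ - θ'| := by
    refine (Finset.abs_sum_le_sum_abs _ _).trans (Finset.sum_le_sum fun k _ => ?_)
    refine (clamp01_lip _ _).trans (le_of_eq ?_)
    rw [sub_sub_sub_cancel_right, xc_sub, abs_mul, abs_of_nonneg (by positivity)]
  rw [Finset.sum_const, Finset.card_range, nsmul_eq_mul] at h1
  calc 2 * Real.pi * |∑ k ∈ Finset.range T, _| ≤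
      2 * Real.pi * (T * ((2 * T + 1) / (2 * Real.pi) * |θ - θ'|)) :=
        mul_le_mul_of_nonneg_left h1 (by linarith)
    _ = _ := by field_simp

/-- Values at the rests. -/
theorem prof_eq_rest {T k : ℕ} (hk : k ≤ T) {θ : ℝ} (h1 : 2 * (k : ℝ) ≤ xc T θ)
    (h2 : xc T θ ≤ 2 * k + 1) : prof T θ = Real.pi + 2 * Real.pi * k := by
  rw [prof]
  congr 2
  have h3 : ∀ j ∈ Finset.range T, clamp01 (xc T θ - (2 * j + 1)) = if j < k then 1 else 0 := by
    intro j _
    split_ifs with h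
    · refine clamp01_eq_one ?_
      have : (j : ℝ) + 1 ≤ k := by exact_mod_cast h
      linarith
    · refine clamp01_of_le_zero ?_
      have : (k : ℝ) ≤ j := by exact_mod_cast not_lt.mp h
      linarith
  rw [Finset.sum_congr rfl h3, Finset.sum_ite]
  simp only [Finset.sum_const_zero, add_zero, Finset.sum_const, nsmul_eq_mul, mul_one]
  have h4 : Finset.filter (fun j => j < k) (Finset.range T) = Finset.range k := by
    ext j
    simp only [Finset.mem_filter, Finset.mem_range]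
    omega
  rw [h4, Finset.card_range]

/-- Values at the turns. -/
theorem prof_eq_turn {T k : ℕ} (hk : k < T) {θ : ℝ} (h1 : 2 * (k : ℝ) + 1 ≤ xc T θ)
    (h2 : xc T θ ≤ 2 * k + 2) :
    prof T θ = Real.pi + 2 * Real.pi * k + 2 * Real.pi * (xc T θ - (2 * k + 1)) := by
  rw [prof, add_assoc, ← mul_add]
  congr 2
  have h3 : ∀ j ∈ Finset.range T, clamp01 (xc T θ - (2 * j + 1)) =
      (if j < k then 1 else 0) + if j = k then (xc T θ - (2 * k + 1)) else 0 := by
    intro j _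
    rcases lt_trichotomy j k with h | h | h
    · rw [if_pos h, if_neg h.ne, add_zero]
      refine clamp01_eq_one ?_
      have : (j : ℝ) + 1 ≤ k := by exact_mod_cast h
      linarith
    · subst h
      rw [if_neg (lt_irrefl _), if_pos rfl, zero_add]
      exact clamp01_eq_self (by linarith) (by linarith)
    · rw [if_neg (by omega), if_neg (by omega), add_zero]
      refine clamp01_of_le_zero ?_
      have : (k : ℝ) + 1 ≤ j := by exact_mod_cast h
      linarith
  rw [Finset.sum_congr rfl h3, Finset.sum_add_distrib, Finset.sum_ite, Finset.sum_ite_eq']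
  simp only [Finset.sum_const_zero, add_zero, Finset.sum_const, nsmul_eq_mul, mul_one,
    Finset.mem_range, hk, if_true]
  have h4 : Finset.filter (fun j => j < k) (Finset.range T) = Finset.range k := by
    ext j
    simp only [Finset.mem_filter, Finset.mem_range]
    omega
  rw [h4, Finset.card_range]

/-- Every position is in a rest or in an open turn. -/
theorem rest_or_turn {T : ℕ} {x : ℝ} (h0 : 0 ≤ x) (h1 : x ≤ 2 * T + 1) :
    (∃ k : ℕ, k ≤ T ∧ 2 * (k : ℝ) ≤ x ∧ x ≤ 2 * k + 1) ∨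
      ∃ k : ℕ, k < T ∧ 2 * (k : ℝ) + 1 < x ∧ x < 2 * k + 2 := by
  set k : ℕ := ⌊x / 2⌋₊ with hk
  have h2 : (k : ℝ) ≤ x / 2 := Nat.floor_le (by linarith)
  have h3 : x / 2 < k + 1 := Nat.lt_floor_add_one _
  by_cases h : x ≤ 2 * k + 1
  · refine Or.inl ⟨k, ?_, by linarith, h⟩
    have : (k : ℝ) ≤ T + 1 / 2 := by linarith
    by_contra hcon
    have : (T : ℝ) + 1 ≤ k := by exact_mod_cast not_le.mp hcon
    linarith
  · push Not at h
    refine Or.inr ⟨k, ?_, h, by linarith⟩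
    by_contra hcon
    have : (T : ℝ) ≤ k := by exact_mod_cast not_lt.mp hcon
    linarith

end Vale.Agent.P268.T.RV
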