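import Vale.Agent.P268.T.H128.Snap
import Vale.Agent.P268.T.H69.Stages
import Vale.Agent.P268.T.H500.Cut

/-!
# P268, topological half, route V: from the gate form to the ray form

The five stages (69, 500, 5, 73, 830) chained: `GateMove`.
-/

set_option linter.unusedSectionVars false

namespace Vale.Agent.P268.T.RV

open Set Filter Topology

/-- The statement of stage D (830). -/
def StageD (N : ℕ) (ε : ℝ) : Prop :=
  Stage N (fun T _ => P1 T) (fun a T _ θ => mark a T (P1 T θ)) (fun a _ => rayFirst ε a)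
    (fun a t q => stepD ε (a - 2) 2 (fun z => eta (a + 1) (P1 (a + 1) (Complex.arg z))) t q)

theorem trn_of_ok {N a b : ℕ} {c : List ℕ} (h : okN N a (b :: c)) :
    a < trn b c ∧ 2 ≤ trn b c ∧ trn b c ≤ N := by
  obtain ⟨h1, -, h3⟩ := h
  obtain ⟨h4, h5⟩ := h3 b (by simp)
  cases c with
  | nil => exact ⟨h4, by show 2 ≤ b; omega, h5.le⟩
  | cons x c => exact ⟨h4.trans (Nat.lt_succ_self b), by show 2 ≤ b + 1; omega, h5⟩

/-- A stage with given ends. -/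
theorem Snap.Eqv.of_St {N : ℕ} {P : ℕ → ℝ → ℝ → ℝ} {X : ℕ → ℕ → ℝ → ℝ → ℝ}
    {G₁ : ℕ → ℝ → ℂ → ℂ} {G : ℕ → ℝ → ℝ → ℂ → ℂ} (h : Stage N P X G₁ G) {c : List ℕ}
    (hc : c ≠ []) (hok : OkAll (okN N) c) {s₀ s₁ : Snap}
    (h0 : Snap.Same (okN N) (snapAt G₁ G (chiX X) 0) s₀)
    (h1 : Snap.Same (okN N) (snapAt G₁ G (chiX X) 1) s₁) : Snap.Eqv c s₀ s₁ :=
  Snap.Eqv.of_stage h.gateData hc hok h0 h1

theorem Stage.chiX_nonneg {N : ℕ} {P : ℕ → ℝ → ℝ → ℝ} {X : ℕ → ℕ → ℝ → ℝ → ℝ}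
    {G₁ : ℕ → ℝ → ℂ → ℂ} {G : ℕ → ℝ → ℝ → ℂ → ℂ} (h : Stage N P X G₁ G) {t : ℝ}
    (ht : t ∈ Icc (0 : ℝ) 1) {a b : ℕ} {c : List ℕ} (hok : okN N a (b :: c)) (y : ℂ) :
    0 ≤ chiX X a (b :: c) t y :=
  h.gateData.χ_nonneg a b c hok t ht y

/-- Snapshot after stage I. -/
noncomputable def snapI : Snap :=
  snapAt (fun a t => pol (fun θ => eP ((1 - t) * P0 a θ + t * P1 a θ)))
    (fun a => realG (a + 1) (fun t θ => eP ((1 - t) * P0 (a + 1) θ + t * P1 (a + 1) θ))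
      (fun t θ => (1 - t) * P0 (a + 1) θ + t * P1 (a + 1) θ))
    (chiX fun a T t θ => mark a T ((1 - t) * P0 T θ + t * P1 T θ)) (0 : ℝ)

/-- Snapshot after stage A. -/
noncomputable def snapA : Snap :=
  snapAt (fun a t => pol (fun θ => eP (P1 a θ) - ((t * cC a : ℝ) : ℂ)))
    (fun a => realG (a + 1) (fun t θ => eP (P1 (a + 1) θ) - ((t * cC (a + 1) : ℝ) : ℂ))
      (fun _ => P1 (a + 1)))
    (chiX fun a T _ θ => mark a T (P1 T θ)) (0 : ℝ)

/-- Snapshot after stage B. -/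
noncomputable def snapB (ε : ℝ) : Snap :=
  snapAt (fun a t => pol (fun θ => (1 - t) • (eP (P1 a θ) - ((cC a : ℝ) : ℂ)) +
      t • gS ε (KA69 a) θ))
    (fun a => realG (a + 1) (fun t θ => (1 - t) • (eP (P1 (a + 1) θ) - ((cC (a + 1) : ℝ) : ℂ)) +
      t • gS ε (KA69 (a + 1)) θ) (fun _ => P1 (a + 1)))
    (chiX fun a T _ θ => mark a T (P1 T θ)) (0 : ℝ)

/-- Snapshot after stage C. -/
noncomputable def snapC (ε : ℝ) : Snap :=
  snapAt (fun a (_ : ℝ) => rayFirst ε a)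
    (fun a t q => stepD ε (a - 2) 2 (fun z => eta (a + 1) (P1 (a + 1) (Complex.arg z))) t q)
    (chiX fun a T _ θ => mark a T (P1 T θ)) (0 : ℝ)

theorem eqv_I {N : ℕ} {c : List ℕ} (hc : c ≠ []) (hok : OkAll (okN N) c) :
    Snap.Eqv c circSnap snapI := by
  have hS := stageI N
  refine Snap.Eqv.of_St hS hc hok ⟨fun a _ z => stageI_first a z, fun a b c _ q _ z =>
    H73.stI_zero a q z, fun a b c hk y => Stage.chiX_nonneg hS (left_mem_Icc.mpr zero_le_one) hk y,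
    fun a b c hk y => ?_⟩ ⟨fun a _ z => endI_first a z, fun a b c _ q _ z => endI_gate a q z,
    fun a b c hk y => Stage.chiX_nonneg hS (right_mem_Icc.mpr zero_le_one) hk y,
    fun a b c hk y => ?_⟩
  · show ‖y‖ * H5.XI a (trn b c) 0 (Complex.arg y) = cy (trn b c) a y * ‖y‖
    rw [H5.XI_zero (trn_of_ok hk).1, mul_comm]
  · exact congrArg (fun x => ‖y‖ * x) (endI_mark a (trn b c) (Complex.arg y))

theorem eqv_A {N : ℕ} {c : List ℕ} (hc : c ≠ []) (hok : OkAll (okN N) c) :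
    Snap.Eqv c snapI snapA := by
  have hS := stageA N
  refine Snap.Eqv.of_St hS hc hok ⟨fun a _ z => rfl, fun a b c _ q _ z => rfl,
    fun a b c hk y => Stage.chiX_nonneg hS (left_mem_Icc.mpr zero_le_one) hk y,
    fun a b c hk y => rfl⟩ ⟨fun a _ z => endA_first a z, fun a b c _ q _ z => endA_gate a q z,
    fun a b c hk y => Stage.chiX_nonneg hS (right_mem_Icc.mpr zero_le_one) hk y,
    fun a b c hk y => ?_⟩
  exact congrArg (fun x => ‖y‖ * x) (endA_mark a (trn b c) (Complex.arg y))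

theorem eqv_B (ε : ℝ) {N : ℕ} {c : List ℕ} (hc : c ≠ []) (hok : OkAll (okN N) c) :
    Snap.Eqv c snapA (snapB ε) := by
  have hS := stageB N
  exact Snap.Eqv.of_St hS hc hok ⟨fun a _ z => rfl, fun a b c _ q _ z => rfl,
    fun a b c hk y => Stage.chiX_nonneg hS (left_mem_Icc.mpr zero_le_one) hk y,
    fun a b c hk y => rfl⟩ ⟨fun a _ z => endB_first a z ε, fun a b c _ q _ z => endB_gate a q z ε,
    fun a b c hk y => Stage.chiX_nonneg hS (right_mem_Icc.mpr zero_le_one) hk y,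
    fun a b c hk y => rfl⟩

theorem stepD_zero {ε : ℝ} {a : ℕ} (ha : 2 ≤ a) (q : ℝ) (z : ℂ) :
    realG (a + 1) (fun _ => gS ε (KA69 (a + 1))) (fun _ => P1 (a + 1)) 0 q z =
      stepD ε (a - 2) 2 (fun z => eta (a + 1) (P1 (a + 1) (Complex.arg z))) 0 q z := by
  have e : a + 1 - 2 = a - 2 + 1 := by omega
  rw [realG, pol_gS, FS1_KA, e, stepD]
  apply Complex.ext
  · rw [Complex.sub_re, Complex.ofReal_re]
    show rm ε (a - 2 + 1) z - 2 * (eta (a + 1) (P1 (a + 1) (Complex.arg z)) * min q ‖z‖) =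
      (1 - 0) * (rm ε (a - 2 + 1) z - 2 * eta (a + 1) (P1 (a + 1) (Complex.arg z)) * min q ‖z‖) +
        0 * max (rm ε (a - 2) z) (ray ε ((a - 2 : ℕ) + 1) z - q)
    ring
  · rw [Complex.sub_im, Complex.ofReal_im, sub_zero]

theorem stepD_one {ε : ℝ} {a : ℕ} (ha : 2 ≤ a) (η : ℂ → ℝ) (q : ℝ) (z : ℂ) :
    stepD ε (a - 2) 2 η 1 q z = rayGate ε a q z := by
  rw [stepD, rayGate, r1_eq_rm ha]
  have e : a - 1 = a - 2 + 1 := by omega
  apply Complex.ext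
  · show (1 - 1) * _ + 1 * max (rm ε (a - 2) z) (ray ε (a - 2 + 1) z - q) =
      max (rm ε (a - 2) z) (ray ε (a - 1 : ℕ) z - q)
    rw [e]
    ring
  · rfl

theorem eqv_C {ε : ℝ} {N : ℕ} (hC : StageC N ε) {c : List ℕ} (hc : c ≠ [])
    (hok : OkAll (okN N) c) : Snap.Eqv c (snapB ε) (snapC ε) := by
  have hS : Stage N (fun A _ => P1 A) (fun a T _ θ => mark a T (P1 T θ))
    (fun a t => pol (fun θ => (1 - t) • (eP (P1 a θ) - ((cC a : ℝ) : ℂ)) + t • gS ε (KA69 a) θ))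
    (fun a => realG (a + 1) (fun t θ => (1 - t) • (eP (P1 (a + 1) θ) - ((cC (a + 1) : ℝ) : ℂ)) +
      t • gS ε (KA69 (a + 1)) θ) (fun _ => P1 (a + 1))) := hC
  refine Snap.Eqv.of_St hS hc hok ⟨fun a _ z => rfl, fun a b c _ q _ z => rfl,
    fun a b c hk y => Stage.chiX_nonneg hS (left_mem_Icc.mpr zero_le_one) hk y,
    fun a b c hk y => rfl⟩ ⟨fun a hk z => ?_, fun a b c hk q _ z => ?_,
    fun a b c hk y => Stage.chiX_nonneg hS (right_mem_Icc.mpr zero_le_one) hk y,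
    fun a b c hk y => rfl⟩
  · exact (endC_first a z ε).trans (rayFirst_eq hk.1 z).symm
  · exact (endC_gate a q z ε).trans (stepD_zero hk.1 q z)

theorem eqv_D {ε : ℝ} {N : ℕ} (hD : StageD N ε) {c : List ℕ} (hc : c ≠ [])
    (hok : OkAll (okN N) c) : Snap.Eqv c (snapC ε) (raySnap ε (chiEnd P1 N)) := by
  have hS : Stage N (fun T _ => P1 T) (fun a T _ θ => mark a T (P1 T θ)) (fun a _ => rayFirst ε a)
    (fun a t q => stepD ε (a - 2) 2 (fun z => eta (a + 1) (P1 (a + 1) (Complex.arg z))) t q) := hD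
  refine Snap.Eqv.of_St hS hc hok ⟨fun a _ z => rfl, fun a b c _ q _ z => rfl,
    fun a b c hk y => Stage.chiX_nonneg hS (left_mem_Icc.mpr zero_le_one) hk y,
    fun a b c hk y => rfl⟩ ⟨fun a hk z => rfl, fun a b c hk q _ z =>
      stepD_one (ε := ε) hk.1 (fun z => eta (a + 1) (P1 (a + 1) (Complex.arg z))) q z,
    fun a b c hk y => Stage.chiX_nonneg hS (right_mem_Icc.mpr zero_le_one) hk y,
    fun a b c hk y => ?_⟩
  show chiX (fun a T _ θ => mark a T (P1 T θ)) a (b :: c) 1 y = chiEnd P1 N a (b :: c) y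
  rw [chiEnd, if_pos ⟨(trn_of_ok hk).2.1, (trn_of_ok hk).2.2⟩]
  rfl

theorem exists_bound : ∀ c : List ℕ, ∃ N, ∀ x ∈ c, x < N
  | [] => ⟨0, fun x hx => absurd hx List.not_mem_nil⟩
  | a :: c => by
    obtain ⟨N, hN⟩ := exists_bound c
    refine ⟨max (a + 1) N, fun x hx => ?_⟩
    rcases List.mem_cons.mp hx with rfl | hx
    · exact lt_of_lt_of_le (Nat.lt_succ_self _) (le_max_left _ _)
    · exact (hN x hx).trans_le (le_max_right _ _)

/-- **`GateMove`** from stage D. -/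
theorem gateMove_of_stageD
    (hD : ∀ N : ℕ, ∀ d > 0, (∀ T, 2 ≤ T → T ≤ N → NearP T (P1 T) d) →
      ∃ ε₁ > 0, ∀ ε ∈ Ioc (0 : ℝ) ε₁, StageD N ε) : GateMove := by
  refine gateMove_of_snap fun a c h2 hcc => ?_
  obtain ⟨N, hN⟩ := exists_bound (a :: c)
  obtain ⟨d, hd, -, hnear, hray⟩ := isP1_P1.rayGateFun N
  obtain ⟨e₁, he₁, hC⟩ := stageC N
  obtain ⟨e₂, he₂, hD⟩ := hD N d hd hnear
  refine ⟨d, hd, min e₁ e₂, lt_min he₁ he₂, fun ε hε => ⟨chiEnd P1 N, hray, ?_⟩⟩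
  have hne : a :: c ≠ [] := List.cons_ne_nil _ _
  have hok : OkAll (okN N) (a :: c) := okAll_okN h2 hcc hN
  exact ((((eqv_I hne hok).trans (eqv_A hne hok)).trans (eqv_B ε hne hok)).trans
    (eqv_C (hC ε ⟨hε.1, hε.2.trans (min_le_left _ _)⟩) hne hok)).trans
    (eqv_D (hD ε ⟨hε.1, hε.2.trans (min_le_right _ _)⟩) hne hok)

end Vale.Agent.P268.T.RV
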