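import Vale.Agent.P268.T.Polar
import Vale.Agent.P268.T.Mono2
import Vale.Agent.P268.T.H594.Lift

/-!
# P268, topological half: functions `|z| exp (i ψ (arg z))` of one complex variable
-/

set_option linter.unusedSectionVars false

namespace Vale.Agent.P268.T

open Set Filter Topology

variable {T : Type*} [TopologicalSpace T]

theorem polar_incr {ψ : ℝ → ℝ} {σ Λ δ : ℝ} (hσ0 : 0 < σ)
    (hψ : ∀ θ θ', |θ| < δ → |θ'| < δ → θ ≤ θ' →
      σ * (θ' - θ) ≤ ψ θ' - ψ θ ∧ ψ θ' - ψ θ ≤ Λ * (θ' - θ)) {θ τ : ℝ} (hθδ : |θ| < δ)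
    (hθδ' : |θ + τ| < δ) :
    σ * τ ^ 2 ≤ (ψ (θ + τ) - ψ θ) * τ ∧ |ψ (θ + τ) - ψ θ| ≤ Λ * |τ| := by
  rcases le_total 0 τ with h | h
  · obtain ⟨h1, h2⟩ := hψ θ (θ + τ) hθδ hθδ' (by linarith)
    rw [add_sub_cancel_left] at h1 h2
    have h3 : 0 ≤ ψ (θ + τ) - ψ θ := (mul_nonneg hσ0.le h).trans h1
    rw [abs_of_nonneg h3, abs_of_nonneg h]
    refine ⟨?_, h2⟩
    have := mul_le_mul_of_nonneg_right h1 h
    calc σ * τ ^ 2 = σ * τ * τ := by ring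
      _ ≤ _ := this
  · obtain ⟨h1, h2⟩ := hψ (θ + τ) θ hθδ' hθδ (by linarith)
    have h4 : θ - (θ + τ) = -τ := by ring
    rw [h4] at h1 h2
    have h6 : 0 ≤ -τ := by linarith
    have h3 : 0 ≤ ψ θ - ψ (θ + τ) := (mul_nonneg hσ0.le h6).trans h1
    rw [abs_of_nonpos (by linarith), abs_of_nonpos h]
    refine ⟨?_, by linarith⟩
    have := mul_le_mul_of_nonneg_right h1 h6
    calc σ * τ ^ 2 = σ * -τ * -τ := by ring
      _ ≤ (ψ θ - ψ (θ + τ)) * -τ := this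
      _ = _ := by ring

theorem polar_rem {g g₀ u : ℂ} {R η M C : ℝ} (hR : 0 < R) (hη : 0 < η) (hM : 1 ≤ M) (hC : 0 ≤ C)
    (hg₀ : ‖g₀‖ = R) (hgg : ‖g - g₀‖ ≤ η * R) (hun : ‖u‖ ≤ M * C) (hu1 : ‖u‖ ≤ 1)
    (hCη : C ≤ η) : ‖g * (Complex.exp u - 1) - g₀ * u‖ ≤ 4 * η * R * M ^ 2 * C := by
  have hE1 : ‖Complex.exp u - 1‖ ≤ 2 * ‖u‖ := Complex.norm_exp_sub_one_le hu1
  have hE2 : ‖Complex.exp u - 1 - u‖ ≤ ‖u‖ ^ 2 := Complex.norm_exp_sub_one_sub_id_le hu1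
  have hM0 : 0 < M := by linarith
  have e6 : g * (Complex.exp u - 1) - g₀ * u =
      (g - g₀) * (Complex.exp u - 1) + g₀ * (Complex.exp u - 1 - u) := by ring
  rw [e6]
  have h1 : ‖(g - g₀) * (Complex.exp u - 1)‖ ≤ (η * R) * (2 * (M * C)) := by
    rw [norm_mul]
    exact mul_le_mul hgg (hE1.trans (by linarith)) (norm_nonneg _) (by positivity)
  have h2 : ‖g₀ * (Complex.exp u - 1 - u)‖ ≤ R * ((M * C) * (M * η)) := by
    rw [norm_mul, hg₀]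
    refine mul_le_mul_of_nonneg_left (hE2.trans ?_) hR.le
    rw [sq]
    refine mul_le_mul hun (hun.trans ?_) (norm_nonneg _) (by positivity)
    exact mul_le_mul_of_nonneg_left hCη (by linarith)
  have hX : 0 ≤ η * R * C * M := by positivity
  have hMM : η * R * C * M * 1 ≤ η * R * C * M * M := mul_le_mul_of_nonneg_left hM hX
  have h5 : 0 ≤ η * R * C * M * M := by positivity
  calc ‖(g - g₀) * (Complex.exp u - 1) + g₀ * (Complex.exp u - 1 - u)‖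
      ≤ ‖(g - g₀) * (Complex.exp u - 1)‖ + ‖g₀ * (Complex.exp u - 1 - u)‖ := norm_add_le _ _
    _ ≤ (η * R) * (2 * (M * C)) + R * ((M * C) * (M * η)) := add_le_add h1 h2
    _ = 2 * (η * R * C * M * 1) + η * R * C * M * M := by ring
    _ ≤ 2 * (η * R * C * M * M) + η * R * C * M * M := by linarith
    _ ≤ 4 * (η * R * C * M * M) := by linarith
    _ = _ := by ring

theorem polar_main {w g₀ c : ℂ} {R σ q : ℝ} (hR : 0 < R) (hσ1 : σ ≤ 1)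
    (hw1 : ‖w‖ = 1) (hgw : g₀ = R * (starRingEnd ℂ) w)
    (hq : σ * (w * c).im ^ 2 ≤ q * (w * c).im) :
    R * σ * ‖c‖ ^ 2 ≤ (g₀ * ⟨(w * c).re, q⟩).re * c.re + (g₀ * ⟨(w * c).re, q⟩).im * c.im := by
  set p : ℝ := (w * c).re with hp
  set τ : ℝ := (w * c).im with hτ
  set u : ℂ := ⟨p, q⟩ with hu
  have hwc : ‖w * c‖ = ‖c‖ := by rw [norm_mul, hw1, one_mul]
  have e7 : (g₀ * u).re * c.re + (g₀ * u).im * c.im = (g₀ * u * (starRingEnd ℂ) c).re := by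
    rw [Complex.mul_re (g₀ * u), Complex.conj_re, Complex.conj_im]; ring
  have e8 : g₀ * u * (starRingEnd ℂ) c = R * (u * (starRingEnd ℂ) (w * c)) := by
    rw [hgw, map_mul]; ring
  rw [e7, e8, Complex.re_ofReal_mul]
  have e9 : (u * (starRingEnd ℂ) (w * c)).re = p * p + q * τ := by
    rw [Complex.mul_re, Complex.conj_re, Complex.conj_im]
    show p * p - q * (-τ) = _
    ring
  rw [e9]
  have e10 : ‖c‖ ^ 2 = p ^ 2 + τ ^ 2 := by
    rw [← hwc, Complex.sq_norm, Complex.normSq_apply]; ring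
  rw [e10]
  have h6 : σ * (p ^ 2 + τ ^ 2) ≤ p * p + q * τ := by
    have := mul_le_mul_of_nonneg_right hσ1 (sq_nonneg p)
    linarith
  calc R * σ * (p ^ 2 + τ ^ 2) = R * (σ * (p ^ 2 + τ ^ 2)) := by ring
    _ ≤ R * (p * p + q * τ) := mul_le_mul_of_nonneg_left h6 hR.le

theorem polar_combine {D V c : ℂ} {A B C : ℝ} (hmain : A * ‖c‖ ^ 2 ≤ V.re * c.re + V.im * c.im)
    (hRem : ‖D - V‖ ≤ B * ‖c‖) (hC : B + C ≤ A) :
    C * ‖c‖ ^ 2 ≤ D.re * c.re + D.im * c.im := by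
  have hsplit : D.re * c.re + D.im * c.im =
      (V.re * c.re + V.im * c.im) + ((D - V).re * c.re + (D - V).im * c.im) := by
    simp only [Complex.sub_re, Complex.sub_im]; ring
  have e11 : (D - V).re * c.re + (D - V).im * c.im = ((D - V) * (starRingEnd ℂ) c).re := by
    rw [Complex.mul_re (D - V), Complex.conj_re, Complex.conj_im]; ring
  have h7 := Complex.abs_re_le_norm ((D - V) * (starRingEnd ℂ) c)
  rw [norm_mul, RCLike.norm_conj] at h7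
  have h8 := (abs_le.mp h7).1
  have h9 : ‖D - V‖ * ‖c‖ ≤ B * ‖c‖ ^ 2 := by
    calc ‖D - V‖ * ‖c‖ ≤ (B * ‖c‖) * ‖c‖ := mul_le_mul_of_nonneg_right hRem (norm_nonneg _)
      _ = _ := by ring
  have h10 : (B + C) * ‖c‖ ^ 2 ≤ A * ‖c‖ ^ 2 := mul_le_mul_of_nonneg_right hC (by positivity)
  rw [hsplit, e11]
  linarith

/-- Local monotonicity of the polar function in logarithmic coordinates. -/
theorem polar_monOn {ψ : ℝ → ℝ} {σ Λ δ η : ℝ} (hσ0 : 0 < σ) (hσ1 : σ ≤ 1) (hΛ : 1 ≤ Λ)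
    (hψ : ∀ θ θ', |θ| < δ → |θ'| < δ → θ ≤ θ' →
      σ * (θ' - θ) ≤ ψ θ' - ψ θ ∧ ψ θ' - ψ θ ≤ Λ * (θ' - θ))
    {g₀ : ℂ} {R : ℝ} (hR : 0 < R) (hg₀ : ‖g₀‖ = R) {ζ₀ : ℂ} {U : Set ℂ}
    (hη : 0 < η) (hηΛ : 8 * (1 + Λ) ^ 2 * η ≤ σ)
    (hU : ∀ ζ ∈ U, ‖ζ - ζ₀‖ < min (η / 2) δ)
    (hg : ∀ ζ ∈ U, ‖Complex.exp ⟨ζ.re, ψ (ζ.im - ζ₀.im)⟩ - g₀‖ ≤ η * R) :
    MonOn (R * σ / 2) (4 * R * (1 + Λ))
      (fun ζ : ℂ => Complex.exp ⟨ζ.re, ψ (ζ.im - ζ₀.im)⟩)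
      (((starRingEnd ℂ) (g₀ / R)) • (ContinuousLinearMap.id ℝ ℂ)) U := by
  set w : ℂ := (starRingEnd ℂ) (g₀ / R) with hw
  have hw1 : ‖w‖ = 1 := by
    rw [hw, RCLike.norm_conj, norm_div, hg₀]
    simp [abs_of_pos hR, hR.ne']
  have hgw : g₀ = R * (starRingEnd ℂ) w := by
    have hRC : (R : ℂ) ≠ 0 := Complex.ofReal_ne_zero.mpr hR.ne'
    rw [hw, Complex.conj_conj, mul_div_cancel₀ _ hRC]
  have hη1 : (1 + Λ) * η ≤ 1 ∧ η ≤ 1 := by
    have h1 : 1 ≤ 8 * (1 + Λ) := by linarith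
    have h2 : 0 ≤ (1 + Λ) * η := by positivity
    have h3 : 1 * ((1 + Λ) * η) ≤ 8 * (1 + Λ) * ((1 + Λ) * η) := mul_le_mul_of_nonneg_right h1 h2
    have h4 : 8 * (1 + Λ) * ((1 + Λ) * η) = 8 * (1 + Λ) ^ 2 * η := by ring
    have h5 : 1 * η ≤ (1 + Λ) * η := mul_le_mul_of_nonneg_right (by linarith) hη.le
    constructor <;> linarith
  intro ζ hζ c hc
  have hAc : (w • (ContinuousLinearMap.id ℝ ℂ) : ℂ →L[ℝ] ℂ) c = w * c := rfl
  rw [hAc] at hc ⊢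
  beta_reduce
  have e1 : (ζ + w * c).re = ζ.re + (w * c).re := rfl
  have e2 : (ζ + w * c).im = ζ.im + (w * c).im := rfl
  rw [e1, e2]
  set θ : ℝ := ζ.im - ζ₀.im with hθ
  have e3 : ζ.im + (w * c).im - ζ₀.im = θ + (w * c).im := by rw [hθ]; ring
  rw [e3]
  have hζ1 := hU ζ hζ
  have hζ2 := hU _ hc
  have hθδ : |θ| < δ := by
    have : |(ζ - ζ₀).im| ≤ ‖ζ - ζ₀‖ := Complex.abs_im_le_norm _
    rw [Complex.sub_im] at this
    exact this.trans_lt (hζ1.trans_le (min_le_right _ _))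
  have hθδ' : |θ + (w * c).im| < δ := by
    have : |(ζ + w * c - ζ₀).im| ≤ ‖ζ + w * c - ζ₀‖ := Complex.abs_im_le_norm _
    have e4 : (ζ + w * c - ζ₀).im = θ + (w * c).im := by
      rw [Complex.sub_im, e2, hθ]; ring
    rw [e4] at this
    exact this.trans_lt (hζ2.trans_le (min_le_right _ _))
  obtain ⟨hq1, hq2⟩ := polar_incr hσ0 hψ hθδ hθδ'
  set q : ℝ := ψ (θ + (w * c).im) - ψ θ with hq
  have hwc : ‖w * c‖ = ‖c‖ := by rw [norm_mul, hw1, one_mul]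
  have hcη : ‖c‖ ≤ η := by
    have e5 : w * c = (ζ + w * c - ζ₀) - (ζ - ζ₀) := by ring
    rw [← hwc, e5]
    calc ‖(ζ + w * c - ζ₀) - (ζ - ζ₀)‖ ≤ ‖ζ + w * c - ζ₀‖ + ‖ζ - ζ₀‖ := norm_sub_le _ _
      _ ≤ η / 2 + η / 2 := add_le_add (hζ2.trans_le (min_le_left _ _)).le
          (hζ1.trans_le (min_le_left _ _)).le
      _ = η := by ring
  set u : ℂ := ⟨(w * c).re, q⟩ with hu
  have hp1 : |(w * c).re| ≤ ‖c‖ := by rw [← hwc]; exact Complex.abs_re_le_norm _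
  have hτ1 : |(w * c).im| ≤ ‖c‖ := by rw [← hwc]; exact Complex.abs_im_le_norm _
  have hun : ‖u‖ ≤ (1 + Λ) * ‖c‖ := by
    refine (Complex.norm_le_abs_re_add_abs_im _).trans ?_
    show |(w * c).re| + |q| ≤ _
    have h1 : Λ * |(w * c).im| ≤ Λ * ‖c‖ := mul_le_mul_of_nonneg_left hτ1 (by linarith)
    linarith
  have hu1 : ‖u‖ ≤ 1 := by
    refine hun.trans (le_trans ?_ hη1.1)
    exact mul_le_mul_of_nonneg_left hcη (by linarith)
  -- the increment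
  set g : ℂ := Complex.exp ⟨ζ.re, ψ θ⟩ with hgdef
  have hD : Complex.exp ⟨ζ.re + (w * c).re, ψ (θ + (w * c).im)⟩ - g =
      g * (Complex.exp u - 1) := by
    have : (⟨ζ.re + (w * c).re, ψ (θ + (w * c).im)⟩ : ℂ) = ⟨ζ.re, ψ θ⟩ + u := by
      apply Complex.ext
      · rfl
      · show ψ (θ + (w * c).im) = ψ θ + q
        rw [hq]; ring
    rw [this, Complex.exp_add, hgdef]; ring
  rw [hD]
  have hgg := hg ζ hζ
  rw [← hθ] at hgg
  have hRem := polar_rem (M := 1 + Λ) (C := ‖c‖) hR hη (by linarith) (norm_nonneg _) hg₀ hgg hun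
    hu1 hcη
  constructor
  · refine polar_combine (A := R * σ) (B := 4 * η * R * (1 + Λ) ^ 2)
      (polar_main hR hσ1 hw1 hgw hq1) hRem ?_
    have h1 : R * (8 * (1 + Λ) ^ 2 * η) ≤ R * σ := mul_le_mul_of_nonneg_left hηΛ hR.le
    have h2 : 4 * η * R * (1 + Λ) ^ 2 = R * (8 * (1 + Λ) ^ 2 * η) / 2 := by ring
    rw [h2]
    linarith
  · have hgn : ‖g‖ ≤ 2 * R := by
      have h11 : ‖g‖ ≤ ‖g - g₀‖ + ‖g₀‖ := by
        have := norm_add_le (g - g₀) g₀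
        rwa [sub_add_cancel] at this
      rw [hg₀] at h11
      have h12 : η * R ≤ 1 * R := mul_le_mul_of_nonneg_right hη1.2 hR.le
      linarith
    have hE1 : ‖Complex.exp u - 1‖ ≤ 2 * ‖u‖ := Complex.norm_exp_sub_one_le hu1
    rw [norm_mul]
    calc ‖g‖ * ‖Complex.exp u - 1‖ ≤ (2 * R) * (2 * ((1 + Λ) * ‖c‖)) :=
          mul_le_mul hgn (hE1.trans (by linarith)) (norm_nonneg _) (by positivity)
      _ = 4 * R * (1 + Λ) * ‖c‖ := by ring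

/-- **Polar functions are regular.** -/
theorem RegAt.of_polar {s : Set T} {F : T → ℂ → ℂ} {t₀ : T} (ht₀ : t₀ ∈ s) {z₀ : ℂ}
    (hz₀ : z₀ ≠ 0) {ψ : T → ℝ → ℝ} {σ Λ δ : ℝ} (hσ : 0 < σ) (hδ : 0 < δ)
    (hψ : ∀ᶠ t in 𝓝[s] t₀, ∀ θ θ', |θ| < δ → |θ'| < δ → θ ≤ θ' →
      σ * (θ' - θ) ≤ ψ t θ' - ψ t θ ∧ ψ t θ' - ψ t θ ≤ Λ * (θ' - θ))
    (hc : ContinuousWithinAt (fun t => ψ t 0) s t₀)
    (hF : ∃ U ∈ 𝓝 z₀, ∀ᶠ t in 𝓝[s] t₀, ∀ z ∈ U,
      F t z = (‖z‖ : ℂ) * Complex.exp (Complex.I * ψ t (Complex.arg (z / z₀)))) :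
    RegAt s F t₀ z₀ := by
  have hpi := Real.pi_pos
  set ζ₀ : ℂ := Complex.log z₀ with hζ₀
  have hez : Complex.exp ζ₀ = z₀ := Complex.exp_log hz₀
  have key : RegAt s (fun t ζ => F t (Complex.exp ζ)) t₀ ζ₀ := by
    set R : ℝ := ‖z₀‖ with hR
    have hR0 : 0 < R := norm_pos_iff.mpr hz₀
    set g₀ : ℂ := Complex.exp ⟨ζ₀.re, ψ t₀ 0⟩ with hg₀
    have hg₀n : ‖g₀‖ = R := by
      rw [hg₀, Complex.norm_exp, hR, ← hez, Complex.norm_exp]
    set σ' : ℝ := min σ 1 with hσ'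
    have hσ'0 : 0 < σ' := lt_min hσ one_pos
    set Λ' : ℝ := max Λ 1 with hΛ'
    have hΛ'1 : 1 ≤ Λ' := le_max_right _ _
    set η : ℝ := σ' / (8 * (1 + Λ') ^ 2) with hη
    have hΛp : 0 < 1 + Λ' := by linarith
    have hη0 : 0 < η := by positivity
    have hηΛ : 8 * (1 + Λ') ^ 2 * η ≤ σ' := by
      rw [hη]; field_simp; exact le_refl _
    -- continuity of the exponential
    have hexp : ContinuousAt Complex.exp (⟨ζ₀.re, ψ t₀ 0⟩ : ℂ) :=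
      Complex.continuous_exp.continuousAt
    obtain ⟨r, hr, hrb⟩ := Metric.continuousAt_iff.mp hexp (η * R) (by positivity)
    obtain ⟨U, hU, hFU⟩ := hF
    have hUe : ∀ᶠ ζ in 𝓝 ζ₀, Complex.exp ζ ∈ U := by
      have h1 : Tendsto Complex.exp (𝓝 ζ₀) (𝓝 z₀) := by
        have := Complex.continuous_exp.continuousAt (x := ζ₀)
        rwa [ContinuousAt, hez] at this
      exact h1.eventually hU
    obtain ⟨ρ, hρ, hρU⟩ := Metric.eventually_nhds_iff_ball.mp hUe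
    set V : Set ℂ := Metric.ball ζ₀ (min (min (min (η / 2) δ) (min ρ (Real.pi / 2)))
      (r / (2 * (1 + Λ')))) with hV
    have hVn : V ∈ 𝓝 ζ₀ := Metric.ball_mem_nhds _ (by positivity)
    have hVb : ∀ ζ ∈ V, ‖ζ - ζ₀‖ < min (η / 2) δ ∧ ‖ζ - ζ₀‖ < ρ ∧ ‖ζ - ζ₀‖ < Real.pi / 2 ∧
        ‖ζ - ζ₀‖ < r / (2 * (1 + Λ')) := by
      intro ζ hζ
      rw [hV, Metric.mem_ball, dist_eq_norm] at hζ
      refine ⟨hζ.trans_le ((min_le_left _ _).trans (min_le_left _ _)),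
        hζ.trans_le ((min_le_left _ _).trans ((min_le_right _ _).trans (min_le_left _ _))),
        hζ.trans_le ((min_le_left _ _).trans ((min_le_right _ _).trans (min_le_right _ _))),
        hζ.trans_le (min_le_right _ _)⟩
    have hcev : ∀ᶠ t in 𝓝[s] t₀, |ψ t 0 - ψ t₀ 0| < r / 4 := by
      have := (Metric.continuousWithinAt_iff'.mp hc) (r / 4) (by positivity)
      simpa [Real.dist_eq] using this
    have hmon : RegAt s (fun t (ζ : ℂ) => Complex.exp ⟨ζ.re, ψ t (ζ.im - ζ₀.im)⟩) t₀ ζ₀ := by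
      refine RegAt.of_monOn (κ := R * σ' / 2) (K := 4 * R * (1 + Λ')) (by positivity) hVn ?_
        (A := ((starRingEnd ℂ) (g₀ / R)) • (ContinuousLinearMap.id ℝ ℂ))
      filter_upwards [hψ, hcev] with t h1 h2
      have h1' : ∀ θ θ', |θ| < δ → |θ'| < δ → θ ≤ θ' →
          σ' * (θ' - θ) ≤ ψ t θ' - ψ t θ ∧ ψ t θ' - ψ t θ ≤ Λ' * (θ' - θ) := by
        intro θ θ' h3 h4 h5
        obtain ⟨h6, h7⟩ := h1 θ θ' h3 h4 h5
        have h8 : 0 ≤ θ' - θ := by linarith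
        exact ⟨(mul_le_mul_of_nonneg_right (min_le_left _ _) h8).trans h6,
          h7.trans (mul_le_mul_of_nonneg_right (le_max_left _ _) h8)⟩
      refine polar_monOn hσ'0 (min_le_right _ _) hΛ'1 h1' hR0 hg₀n hη0 hηΛ
        (fun ζ hζ => (hVb ζ hζ).1) (fun ζ hζ => ?_)
      obtain ⟨h3, h4, h5, h6⟩ := hVb ζ hζ
      have h7 : |ζ.im - ζ₀.im| ≤ ‖ζ - ζ₀‖ := Complex.abs_im_le_norm (ζ - ζ₀)
      have h8 : |ζ.re - ζ₀.re| ≤ ‖ζ - ζ₀‖ := Complex.abs_re_le_norm (ζ - ζ₀)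
      have h9 : |ψ t (ζ.im - ζ₀.im) - ψ t 0| ≤ Λ' * |ζ.im - ζ₀.im| := by
        have h10 : |ζ.im - ζ₀.im| < δ := h7.trans_lt (h3.trans_le (min_le_right _ _))
        have h11 : |(0:ℝ)| < δ := by simpa using hδ
        rcases le_total 0 (ζ.im - ζ₀.im) with h | h
        · obtain ⟨h12, h13⟩ := h1' 0 _ h11 h10 h
          rw [sub_zero] at h12 h13
          rw [abs_of_nonneg h, abs_of_nonneg ((mul_nonneg hσ'0.le h).trans h12)]
          exact h13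
        · obtain ⟨h12, h13⟩ := h1' _ 0 h10 h11 h
          rw [zero_sub] at h12 h13
          have h14 : 0 ≤ ψ t 0 - ψ t (ζ.im - ζ₀.im) :=
            (mul_nonneg hσ'0.le (by linarith)).trans h12
          rw [abs_of_nonpos h, abs_of_nonpos (by linarith)]
          linarith
      have h15 : dist (⟨ζ.re, ψ t (ζ.im - ζ₀.im)⟩ : ℂ) ⟨ζ₀.re, ψ t₀ 0⟩ < r := by
        rw [dist_eq_norm]
        refine (Complex.norm_le_abs_re_add_abs_im _).trans_lt ?_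
        show |ζ.re - ζ₀.re| + |ψ t (ζ.im - ζ₀.im) - ψ t₀ 0| < r
        have h16 : |ψ t (ζ.im - ζ₀.im) - ψ t₀ 0| ≤
            |ψ t (ζ.im - ζ₀.im) - ψ t 0| + |ψ t 0 - ψ t₀ 0| := by
          have := abs_add_le (ψ t (ζ.im - ζ₀.im) - ψ t 0) (ψ t 0 - ψ t₀ 0)
          rwa [sub_add_sub_cancel] at this
        have h17 : (1 + Λ') * ‖ζ - ζ₀‖ < r / 2 := by
          rw [lt_div_iff₀ (by positivity)] at h6
          linarith
        have h18 : Λ' * |ζ.im - ζ₀.im| ≤ Λ' * ‖ζ - ζ₀‖ :=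
          mul_le_mul_of_nonneg_left h7 (by linarith)
        linarith
      have h19 := hrb h15
      rw [dist_eq_norm] at h19
      exact h19.le
    refine hmon.congr ⟨V, hVn, ?_⟩
    filter_upwards [hFU] with t ht ζ hζ
    obtain ⟨h3, h4, h5, h6⟩ := hVb ζ hζ
    rw [ht _ (hρU ζ (by rwa [Metric.mem_ball, dist_eq_norm]))]
    have h7 : |ζ.im - ζ₀.im| ≤ ‖ζ - ζ₀‖ := Complex.abs_im_le_norm (ζ - ζ₀)
    have h8 : Complex.arg (Complex.exp ζ / z₀) = ζ.im - ζ₀.im := by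
      rw [← hez, ← Complex.exp_sub, Complex.arg_exp]
      rw [Complex.sub_im]
      refine (toIocMod_eq_self Real.two_pi_pos).mpr ?_
      have := abs_lt.mp (h7.trans_lt h5)
      exact ⟨by linarith, by linarith⟩
    rw [h8, Complex.norm_exp, Complex.ofReal_exp, ← Complex.exp_add]
    congr 1
    apply Complex.ext <;> simp
  have h2 := RegAt.of_exp (subset_closure ht₀) key
  rwa [hez] at h2

end Vale.Agent.P268.T
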