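import Vale.Agent.P268.T.SkelChain

/-!
# P268, topological half, route V: snapshots of chains of gates

`Snap`: the data of a chain of gates at one time.  `Snap.Eqv c s s'`: the functions of the two
snapshots are equivalent, for nested eventually all strengths.  Stages (`GateData`) give `Snap.Eqv`;
snapshots which agree on the admissible levels are `Snap.Eqv`.
-/

set_option linter.unusedSectionVars false

namespace Vale.Agent.P268.T.RV

open Set Filter Topology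

/-- The data of a chain of gates at one time. -/
structure Snap where
  /-- first variables -/
  G₁ : ℕ → ℂ → ℂ
  /-- gates -/
  G : ℕ → ℝ → ℂ → ℂ
  /-- gate functions -/
  χ : ℕ → List ℕ → ℂ → ℝ

/-- The function of a snapshot. -/
noncomputable def Snap.fn (s : Snap) (κ : List ℝ) (c : List ℕ) : Sp c → ℂ :=
  gch (Θ := Unit) (fun a _ => s.G₁ a) (fun a _ => s.G a) (fun a c _ => s.χ a c) κ c ()

/-- The snapshot of a family at time `t`. -/
def snapAt {Θ : Type} (G₁ : ℕ → Θ → ℂ → ℂ) (G : ℕ → Θ → ℝ → ℂ → ℂ)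
    (χ : ℕ → List ℕ → Θ → ℂ → ℝ) (t : Θ) : Snap :=
  ⟨fun a => G₁ a t, fun a => G a t, fun a c => χ a c t⟩

theorem snapAt_fn {Θ : Type} [TopologicalSpace Θ] (G₁ : ℕ → Θ → ℂ → ℂ) (G : ℕ → Θ → ℝ → ℂ → ℂ)
    (χ : ℕ → List ℕ → Θ → ℂ → ℝ) (t : Θ) : ∀ (c : List ℕ) (κ : List ℝ),
    (snapAt G₁ G χ t).fn κ c = gch G₁ G χ κ c t
  | [], _ => rfl
  | [_], _ => rfl
  | a :: b :: c, κ => by
    have ih := snapAt_fn G₁ G χ t (b :: c) κ.tail
    funext p
    show (snapAt G₁ G χ t).fn κ.tail (b :: c) p.1 + G a t (κ.headD 0 * χ a (b :: c) t p.1.2) p.2 = _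
    rw [ih]
    rfl

/-- The snapshots have the same functions on the admissible levels. -/
structure Snap.Same (ok : ℕ → List ℕ → Prop) (s s' : Snap) : Prop where
  first : ∀ a, ok a [] → ∀ z, s.G₁ a z = s'.G₁ a z
  gate : ∀ a b c, ok a (b :: c) → ∀ q : ℝ, 0 ≤ q → ∀ z, s.G a q z = s'.G a q z
  nonneg : ∀ a b c, ok a (b :: c) → ∀ y, 0 ≤ s.χ a (b :: c) y
  chi : ∀ a b c, ok a (b :: c) → ∀ y, s.χ a (b :: c) y = s'.χ a (b :: c) y

theorem Snap.Same.fn_eq {ok : ℕ → List ℕ → Prop} {s s' : Snap} (h : Snap.Same ok s s') :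
    ∀ (c : List ℕ) (κ : List ℝ), OkAll ok c → κ.length + 1 = c.length → (∀ k ∈ κ, (0 : ℝ) ≤ k) →
      s.fn κ c = s'.fn κ c
  | [], _, _, _, _ => rfl
  | [a], _, hok, _, _ => by
    funext p
    exact h.first a hok.1 p.2
  | a :: b :: c, [], _, hl, _ => by simp at hl
  | a :: b :: c, k :: κ, hok, hl, hk => by
    have ih := Snap.Same.fn_eq h (b :: c) κ hok.2 (by simpa using hl)
      fun x hx => hk x (List.mem_cons_of_mem _ hx)
    have hk0 : 0 ≤ k := hk k List.mem_cons_self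
    funext p
    show s.fn κ (b :: c) p.1 + s.G a (k * s.χ a (b :: c) p.1.2) p.2 =
      s'.fn κ (b :: c) p.1 + s'.G a (k * s'.χ a (b :: c) p.1.2) p.2
    rw [ih, ← h.chi a b c hok.1, h.gate a b c hok.1 _
      (mul_nonneg hk0 (h.nonneg a b c hok.1 _))]

/-- Equivalence of snapshots. -/
def Snap.Eqv (c : List ℕ) (s s' : Snap) : Prop :=
  ∀ᶠ κ in nestF (c.length - 1), HEqv (s.fn κ c) (s'.fn κ c)

theorem Snap.Eqv.trans {c : List ℕ} {s s' s'' : Snap} (h : Snap.Eqv c s s')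
    (h' : Snap.Eqv c s' s'') : Snap.Eqv c s s'' := by
  filter_upwards [h, h'] with κ h1 h2
  exact h1.trans h2

theorem Snap.Eqv.symm {c : List ℕ} {s s' : Snap} (h : Snap.Eqv c s s') : Snap.Eqv c s' s := by
  filter_upwards [h] with κ h1
  exact h1.symm

/-- The right snapshot may be replaced by one with the same functions. -/
theorem Snap.Eqv.congr_right {c : List ℕ} {s s' s'' : Snap} (h : Snap.Eqv c s s')
    {ok : ℕ → List ℕ → Prop} (hc : c ≠ []) (hok : OkAll ok c) (h' : Snap.Same ok s' s'') :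
    Snap.Eqv c s s'' := by
  filter_upwards [h, eventually_nestF_one_le (c.length - 1)] with κ h1 h2
  have hl : κ.length + 1 = c.length := by
    have : 0 < c.length := List.length_pos_iff.mpr hc
    omega
  rw [← h'.fn_eq c κ hok hl fun k hk => zero_le_one.trans (h2.2 k hk)]
  exact h1

/-- The left snapshot may be replaced by one with the same functions. -/
theorem Snap.Eqv.congr_left {c : List ℕ} {s s' s'' : Snap} (h : Snap.Eqv c s s')
    {ok : ℕ → List ℕ → Prop} (hc : c ≠ []) (hok : OkAll ok c) (h' : Snap.Same ok s s'') :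
    Snap.Eqv c s'' s' :=
  (h.symm.congr_right hc hok h').symm

/-- Stages. -/
theorem Snap.Eqv.of_gateData {Θ : Type} [TopologicalSpace Θ]
    {G₁ : ℕ → Θ → ℂ → ℂ} {G : ℕ → Θ → ℝ → ℂ → ℂ} {χ : ℕ → List ℕ → Θ → ℂ → ℝ} {s : Set Θ}
    (hs : IsCompact s) (hs' : IsPreconnected s) {S : ℕ → List ℕ → Set (Θ × ℂ)}
    {ok : ℕ → List ℕ → Prop} (h : GateData s G₁ G χ S ok) {c : List ℕ} (hc : c ≠ [])
    (hok : OkAll ok c) {t t' : Θ} (ht : t ∈ s) (ht' : t' ∈ s) :
    Snap.Eqv c (snapAt G₁ G χ t) (snapAt G₁ G χ t') := by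
  filter_upwards [GateData.eventually_hEqv hs hs' h hc hok ht ht'] with κ h1
  rw [snapAt_fn, snapAt_fn]
  exact h1

/-- A stage over `[0,1]` with given ends. -/
theorem Snap.Eqv.of_stage {G₁ : ℕ → ℝ → ℂ → ℂ} {G : ℕ → ℝ → ℝ → ℂ → ℂ}
    {χ : ℕ → List ℕ → ℝ → ℂ → ℝ} {S : ℕ → List ℕ → Set (ℝ × ℂ)} {ok : ℕ → List ℕ → Prop}
    (h : GateData (Icc (0 : ℝ) 1) G₁ G χ S ok) {c : List ℕ} (hc : c ≠ []) (hok : OkAll ok c)
    {s₀ s₁ : Snap} (h0 : Snap.Same ok (snapAt G₁ G χ 0) s₀)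
    (h1 : Snap.Same ok (snapAt G₁ G χ 1) s₁) : Snap.Eqv c s₀ s₁ :=
  ((Snap.Eqv.of_gateData isCompact_Icc isPreconnected_Icc h hc hok
    (left_mem_Icc.mpr zero_le_one) (right_mem_Icc.mpr zero_le_one)).congr_left hc hok
      h0).congr_right hc hok h1

/-! ### The two ends -/

/-- The circle snapshot (gate form of route V). -/
noncomputable def circSnap : Snap :=
  ⟨fun a z => ((‖z‖ : ℝ) : ℂ) * eI (Sph a z), fun a => Gam a,
    fun a c y => cy (trn (c.headD 0) c.tail) a y * ‖y‖⟩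

theorem circSnap_fn {c : List ℕ} {l : List ℝ} (hl : l.length + 1 = c.length) (hc : c ≠ []) :
    circSnap.fn l c = Ge l c := (Ge_eq_gch c l hl hc).symm

/-- The ray snapshot. -/
noncomputable def raySnap (ε : ℝ) (χ : ℕ → List ℕ → ℂ → ℝ) : Snap :=
  ⟨rayFirst ε, rayGate ε, χ⟩

theorem raySnap_fn (ε : ℝ) (χ : ℕ → List ℕ → ℂ → ℝ) (l : List ℝ) (c : List ℕ) :
    (raySnap ε χ).fn l c = rayForm ε χ l c := rfl

/-- `GateMove` from an equivalence of snapshots. -/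
theorem gateMove_of_snap
    (h : ∀ (a : ℕ) (c : List ℕ), (∀ x ∈ a :: c, 2 ≤ x) → (a :: c).IsChain (· < ·) →
      ∃ d > 0, ∃ ε₁ > 0, ∀ ε ∈ Ioc (0 : ℝ) ε₁, ∃ χ : ℕ → List ℕ → ℂ → ℝ, RayGateFun d χ ∧
        Snap.Eqv (a :: c) circSnap (raySnap ε χ)) : GateMove := by
  intro a c hc hcc
  obtain ⟨d, hd, ε₁, h1, h2⟩ := h a c hc hcc
  refine ⟨d, hd, ε₁, h1, fun ε hε => ?_⟩
  obtain ⟨χ, hχ, h3⟩ := h2 ε hε
  refine ⟨χ, hχ, ?_⟩
  have h4 : ∀ᶠ κ in nestF c.length, HEqv (circSnap.fn κ (a :: c)) ((raySnap ε χ).fn κ (a :: c)) := h3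
  filter_upwards [h4, eventually_nestF_one_le c.length] with l h5 h6
  rw [← circSnap_fn (by simp [h6.1]) (List.cons_ne_nil _ _)]
  exact h5

end Vale.Agent.P268.T.RV
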