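import Vale.Agent.P268.T.H548.Tail

/-!
# P268, topological half: tame equivalence

`TEqv L F G`: the functions `F` and `G` on `E × ℂ` are connected by finitely many `L`-tame
families over preconnected parameter spaces.  Tame equivalent functions are `HEqv`-equivalent
(`TEqv.hEqv`), and remain tame equivalent when a link is attached to the last variable
(`TEqv.tail`).
-/

set_option linter.unusedSectionVars false

namespace Vale.Agent.P268.T

open Set Filter Topology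

section

variable {E : Type} [NormedAddCommGroup E] [NormedSpace ℝ E]

/-- One tame family. -/
def TStep (L : ℝ) (F G : E × ℂ → ℂ) : Prop :=
  ∃ (Θ : Type) (_ : TopologicalSpace Θ) (s : Set Θ) (Φ : Θ → E × ℂ → ℂ) (a b : Θ),
    IsPreconnected s ∧ Tame s L Φ ∧ a ∈ s ∧ b ∈ s ∧ Φ a = F ∧ Φ b = G

/-- Tame equivalence. -/
def TEqv (L : ℝ) : (E × ℂ → ℂ) → (E × ℂ → ℂ) → Prop := Relation.TransGen (TStep L)

/-- Static tameness. -/
def TFun (L : ℝ) (F : E × ℂ → ℂ) : Prop := Tame (univ : Set Unit) L (fun _ => F)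

theorem TFun.const {Θ : Type*} [TopologicalSpace Θ] {L : ℝ} {F : E × ℂ → ℂ} (h : TFun L F)
    (s : Set Θ) : Tame s L (fun _ : Θ => F) :=
  Tame.param (s' := s) h (φ := fun _ => ()) continuousOn_const (fun _ _ => mem_univ _)

theorem Tame.at {Θ : Type*} [TopologicalSpace Θ] {s : Set Θ} {L : ℝ} {F : Θ → E × ℂ → ℂ}
    (h : Tame s L F) {t : Θ} (ht : t ∈ s) : TFun L (F t) :=
  Tame.param (s' := univ) h (φ := fun _ : Unit => t) continuousOn_const (fun _ _ => ht)

theorem TFun.hFun {L : ℝ} {F : E × ℂ → ℂ} (h : TFun L F) : HFun F := h.fam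

theorem TFun.mono_lip {L L' : ℝ} (hL : L ≤ L') {F : E × ℂ → ℂ} (h : TFun L F) : TFun L' F :=
  Tame.mono_lip hL h

theorem TFun.refl {L : ℝ} {F : E × ℂ → ℂ} (h : TFun L F) : TEqv L F F :=
  Relation.TransGen.single
    ⟨Unit, inferInstance, univ, fun _ => F, (), (), isPreconnected_univ, h, mem_univ _, mem_univ _,
      rfl, rfl⟩

theorem TEqv.of_fam {Θ : Type} [TopologicalSpace Θ] {L : ℝ} {s : Set Θ} {Φ : Θ → E × ℂ → ℂ}
    (hs : IsPreconnected s) (h : Tame s L Φ) {a b : Θ} (ha : a ∈ s) (hb : b ∈ s) :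
    TEqv L (Φ a) (Φ b) :=
  Relation.TransGen.single ⟨Θ, inferInstance, s, Φ, a, b, hs, h, ha, hb, rfl, rfl⟩

theorem TEqv.of_path {L : ℝ} {Φ : ℝ → E × ℂ → ℂ} (h : Tame (Icc (0 : ℝ) 1) L Φ) :
    TEqv L (Φ 0) (Φ 1) :=
  TEqv.of_fam isPreconnected_Icc h (left_mem_Icc.mpr zero_le_one) (right_mem_Icc.mpr zero_le_one)

theorem TEqv.of_path' {L : ℝ} {Φ : ℝ → E × ℂ → ℂ} (h : Tame (Icc (0 : ℝ) 1) L Φ)
    {F G : E × ℂ → ℂ} (h0 : ∀ x, Φ 0 x = F x) (h1 : ∀ x, Φ 1 x = G x) : TEqv L F G := by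
  have e0 : Φ 0 = F := funext h0
  have e1 : Φ 1 = G := funext h1
  rw [← e0, ← e1]
  exact TEqv.of_path h

theorem TEqv.trans {L : ℝ} {F G H : E × ℂ → ℂ} (h : TEqv L F G) (h' : TEqv L G H) : TEqv L F H :=
  Relation.TransGen.trans h h'

theorem TStep.symm {L : ℝ} {F G : E × ℂ → ℂ} (h : TStep L F G) : TStep L G F := by
  obtain ⟨Θ, i, s, Φ, a, b, hs, hΦ, ha, hb, e1, e2⟩ := h
  exact ⟨Θ, i, s, Φ, b, a, hs, hΦ, hb, ha, e2, e1⟩

theorem TEqv.symm {L : ℝ} {F G : E × ℂ → ℂ} (h : TEqv L F G) : TEqv L G F := by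
  induction h with
  | single h => exact Relation.TransGen.single h.symm
  | tail _ h ih => exact (Relation.TransGen.single h.symm).trans ih

theorem TEqv.mono_lip {L L' : ℝ} (hL : L ≤ L') {F G : E × ℂ → ℂ} (h : TEqv L F G) :
    TEqv L' F G := by
  have key : ∀ {F G : E × ℂ → ℂ}, TStep L F G → TStep L' F G := by
    rintro F G ⟨Θ, i, s, Φ, a, b, hs, hΦ, ha, hb, e1, e2⟩
    exact ⟨Θ, i, s, Φ, a, b, hs, hΦ.mono_lip hL, ha, hb, e1, e2⟩
  induction h with
  | single h => exact Relation.TransGen.single (key h)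
  | tail _ h ih => exact Relation.TransGen.tail ih (key h)

theorem TStep.left {L : ℝ} {F G : E × ℂ → ℂ} (h : TStep L F G) : TFun L F := by
  obtain ⟨Θ, i, s, Φ, a, b, hs, hΦ, ha, hb, e1, e2⟩ := h
  rw [← e1]
  exact hΦ.at ha

theorem TStep.right {L : ℝ} {F G : E × ℂ → ℂ} (h : TStep L F G) : TFun L G := h.symm.left

theorem TEqv.right {L : ℝ} {F G : E × ℂ → ℂ} (h : TEqv L F G) : TFun L G := by
  cases h with
  | single h => exact h.right
  | tail _ h => exact h.right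

theorem TEqv.left {L : ℝ} {F G : E × ℂ → ℂ} (h : TEqv L F G) : TFun L F := h.symm.right

theorem TStep.hEqv [FiniteDimensional ℝ E] {L : ℝ} {F G : E × ℂ → ℂ} (h : TStep L F G) :
    HEqv F G := by
  obtain ⟨Θ, i, s, Φ, a, b, hs, hΦ, ha, hb, e1, e2⟩ := h
  rw [← e1, ← e2]
  exact HEqv.of_fam hs hΦ.fam ha hb

/-- Tame equivalent functions are equivalent. -/
theorem TEqv.hEqv [FiniteDimensional ℝ E] {L : ℝ} {F G : E × ℂ → ℂ} (h : TEqv L F G) :
    HEqv F G := by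
  induction h with
  | single h => exact h.hEqv
  | tail _ h ih => exact ih.trans h.hEqv

/-- Attaching a (constant) link. -/
theorem TEqv.tail {L L' : ℝ} {F G : E × ℂ → ℂ} (h : TEqv L F G) {m : ℂ → ℂ → ℂ}
    (hm : Link (univ : Set Unit) L L' (fun _ => m)) :
    TEqv L' (fun p : (E × ℂ) × ℂ => F p.1 + m p.1.2 p.2) (fun p => G p.1 + m p.1.2 p.2) := by
  have key : ∀ {F G : E × ℂ → ℂ}, TStep L F G → TStep L'
      (fun p : (E × ℂ) × ℂ => F p.1 + m p.1.2 p.2) (fun p => G p.1 + m p.1.2 p.2) := by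
    rintro F G ⟨Θ, i, s, Φ, a, b, hs, hΦ, ha, hb, e1, e2⟩
    have hm' : Link s L L' (fun _ : Θ => m) :=
      Link.param (s' := s) hm (φ := fun _ => ()) continuousOn_const (fun _ _ => mem_univ _)
    refine ⟨Θ, i, s, fun t (p : (E × ℂ) × ℂ) => Φ t p.1 + m p.1.2 p.2, a, b, hs,
      hΦ.tail hm', ha, hb, ?_, ?_⟩
    · funext p; show Φ a p.1 + _ = _; rw [e1]
    · funext p; show Φ b p.1 + _ = _; rw [e2]
  induction h with
  | single h => exact Relation.TransGen.single (key h)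
  | tail _ h ih => exact Relation.TransGen.tail ih (key h)

end

end Vale.Agent.P268.T
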